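import Vale.Agent.P146.H130.GBase
import Vale.Agent.P146.H785.Hes

/-!
Base log densities of the form `f0 (z0) + f1 (z1) + U (a z0 + b z1)`, and the two-layer base:
exponent `0` up to the time `t1 - h`, exponent `y` on `[t1 - h, t1]`.
-/

set_option linter.all false

open MeasureTheory ProbabilityTheory Finset

namespace Vale.Agent.P146.R1C

open Vale.Agent.P157.Lv Vale.Agent.P146.H425 Vale.Agent.P146.H712 Vale.Agent.P146.R1
  Vale.Agent.P146.H706
open Vale.Agent.P146.H785 (Ax)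

section c11

variable {κ : Type} [Fintype κ] {F G : (κ → ℝ) → ℝ} {D E : κ → (κ → ℝ) → ℝ} {B L B' L' : ℝ}

/-- a multiple -/
lemma c11_const_mul (h : C11 F D B L) (c : ℝ) :
    C11 (fun z => c * F z) (fun e z => c * D e z) (|c| * B) (|c| * L) where
  B0 := mul_nonneg (abs_nonneg _) h.B0
  L0 := mul_nonneg (abs_nonneg _) h.L0
  lip y w := by
    rw [← mul_sub, abs_mul, mul_assoc]
    exact mul_le_mul_of_nonneg_left (h.lip y w) (abs_nonneg _)
  meas e := (h.meas e).const_mul c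
  bd e y := by
    rw [abs_mul]
    exact mul_le_mul_of_nonneg_left (h.bd e y) (abs_nonneg _)
  quad y w := by
    have e1 : c * F (y + w) - c * F y - ∑ e, c * D e y * w e =
        c * (F (y + w) - F y - ∑ e, D e y * w e) := by
      rw [mul_sub, mul_sub, Finset.mul_sum]
      congr 1
      exact Finset.sum_congr rfl fun e _ => by ring
    rw [e1, abs_mul, mul_assoc]
    exact mul_le_mul_of_nonneg_left (h.quad y w) (abs_nonneg _)

/-- a sum -/
lemma c11_add (h : C11 F D B L) (h' : C11 G E B' L') :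
    C11 (fun z => F z + G z) (fun e z => D e z + E e z) (B + B') (L + L') where
  B0 := add_nonneg h.B0 h'.B0
  L0 := add_nonneg h.L0 h'.L0
  lip y w := by
    have e1 : F (y + w) + G (y + w) - (F y + G y) = (F (y + w) - F y) + (G (y + w) - G y) := by ring
    rw [e1, add_mul]
    exact (abs_add_le _ _).trans (add_le_add (h.lip y w) (h'.lip y w))
  meas e := (h.meas e).add (h'.meas e)
  bd e y := (abs_add_le _ _).trans (add_le_add (h.bd e y) (h'.bd e y))
  quad y w := by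
    have e1 : F (y + w) + G (y + w) - (F y + G y) - ∑ e, (D e y + E e y) * w e =
        (F (y + w) - F y - ∑ e, D e y * w e) + (G (y + w) - G y - ∑ e, E e y * w e) := by
      have : ∑ e, (D e y + E e y) * w e = ∑ e, D e y * w e + ∑ e, E e y * w e := by
        rw [← Finset.sum_add_distrib]
        exact Finset.sum_congr rfl fun e _ => by ring
      rw [this]
      ring
    rw [e1, add_mul]
    exact (abs_add_le _ _).trans (add_le_add (h.quad y w) (h'.quad y w))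

lemma c11_zero : C11 (fun _ : κ → ℝ => (0 : ℝ)) (fun _ _ => 0) 0 0 where
  B0 := le_rfl
  L0 := le_rfl
  lip y w := by simp
  meas e := measurable_const
  bd e y := by simp
  quad y w := by simp

/-- composition with `(z0, z1) ↦ a z0 + b z1` -/
lemma c11_comp2 (h : C11 F D B L) (a b : ℝ) :
    C11 (fun y : κ ⊕ κ → ℝ => F (a • y0 y + b • y1 y))
      (fun j y => Sum.elim (fun e => a * D e (a • y0 y + b • y1 y))
        (fun e => b * D e (a • y0 y + b • y1 y)) j) ((|a| + |b|) * B + (|a| + |b|) * B)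
      (L * (|a| + |b|) ^ 2) := by
  have hab : 0 ≤ |a| + |b| := by positivity
  have n0 : ∀ y : κ ⊕ κ → ℝ, ‖y0 y‖ ≤ ‖y‖ := fun y =>
    (pi_norm_le_iff_of_nonneg (norm_nonneg _)).2 fun _ => norm_le_pi_norm y _
  have n1 : ∀ y : κ ⊕ κ → ℝ, ‖y1 y‖ ≤ ‖y‖ := fun y =>
    (pi_norm_le_iff_of_nonneg (norm_nonneg _)).2 fun _ => norm_le_pi_norm y _
  have nA : ∀ w : κ ⊕ κ → ℝ, ‖a • y0 w + b • y1 w‖ ≤ (|a| + |b|) * ‖w‖ := fun w => by
    refine (norm_add_le _ _).trans ?_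
    rw [norm_smul, norm_smul, Real.norm_eq_abs, Real.norm_eq_abs, add_mul]
    exact add_le_add (mul_le_mul_of_nonneg_left (n0 w) (abs_nonneg _))
      (mul_le_mul_of_nonneg_left (n1 w) (abs_nonneg _))
  have eA : ∀ y w : κ ⊕ κ → ℝ, a • y0 (y + w) + b • y1 (y + w) =
      (a • y0 y + b • y1 y) + (a • y0 w + b • y1 w) := fun y w => by
    funext e
    simp only [y0, y1, Pi.add_apply, Pi.smul_apply, smul_eq_mul]
    ring
  have hm : Measurable fun y : κ ⊕ κ → ℝ => a • y0 y + b • y1 y := by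
    unfold y0 y1
    fun_prop
  have hB2 : (|a| + |b|) * B ≤ (|a| + |b|) * B + (|a| + |b|) * B := by
    have := mul_nonneg hab h.B0
    linarith
  refine ⟨by have := mul_nonneg hab h.B0; linarith, mul_nonneg h.L0 (sq_nonneg _), ?_, ?_, ?_, ?_⟩
  · intro y w
    simp only [eA]
    refine (h.lip _ _).trans ?_
    calc B * ‖a • y0 w + b • y1 w‖ ≤ B * ((|a| + |b|) * ‖w‖) :=
          mul_le_mul_of_nonneg_left (nA w) h.B0
      _ = ((|a| + |b|) * B) * ‖w‖ := by ring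
      _ ≤ _ := mul_le_mul_of_nonneg_right hB2 (norm_nonneg _)
  · intro j
    rcases j with e | e
    · exact ((h.meas e).comp hm).const_mul a
    · exact ((h.meas e).comp hm).const_mul b
  · intro j y
    rcases j with e | e
    · simp only [Sum.elim_inl, abs_mul]
      refine (mul_le_mul_of_nonneg_left (h.bd e _) (abs_nonneg _)).trans (le_trans ?_ hB2)
      exact mul_le_mul_of_nonneg_right (by linarith [abs_nonneg b]) h.B0
    · simp only [Sum.elim_inr, abs_mul]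
      refine (mul_le_mul_of_nonneg_left (h.bd e _) (abs_nonneg _)).trans (le_trans ?_ hB2)
      exact mul_le_mul_of_nonneg_right (by linarith [abs_nonneg a]) h.B0
  · intro y w
    have e1 : ∑ j, Sum.elim (fun e => a * D e (a • y0 y + b • y1 y))
        (fun e => b * D e (a • y0 y + b • y1 y)) j * w j =
        ∑ e, D e (a • y0 y + b • y1 y) * (a • y0 w + b • y1 w) e := by
      rw [Fintype.sum_sum_type, ← Finset.sum_add_distrib]
      refine Finset.sum_congr rfl fun e _ => ?_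
      simp only [Sum.elim_inl, Sum.elim_inr, y0, y1, Pi.add_apply, Pi.smul_apply, smul_eq_mul]
      ring
    simp only [eA]
    rw [e1]
    refine (h.quad _ _).trans ?_
    rw [mul_assoc]
    refine mul_le_mul_of_nonneg_left ?_ h.L0
    rw [← mul_pow]
    exact pow_le_pow_left₀ (norm_nonneg _) (nA w) 2

end c11

section gen

variable {κ : Type}

/-- The base log density `f0 (z0) + f1 (z1) + U (a z0 + b z1)`. -/
def G3 (a b : ℝ) (f0 f1 U : (κ → ℝ) → ℝ) (D0 D1 DU : κ → (κ → ℝ) → ℝ) : GD κ where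
  f z0 z1 := f0 z0 + (f1 z1 + U (a • z0 + b • z1))
  d0 e z0 z1 := D0 e z0 + a * DU e (a • z0 + b • z1)
  d1 e z0 z1 := D1 e z1 + b * DU e (a • z0 + b • z1)

variable [Fintype κ] {f0 f1 U : (κ → ℝ) → ℝ} {D0 D1 DU : κ → (κ → ℝ) → ℝ} {a b : ℝ}

theorem G3_ok {B0 L0 B1 L1 BU LU : ℝ} (h0 : C11 f0 D0 B0 L0) (h1 : C11 f1 D1 B1 L1)
    (hU : C11 U DU BU LU) : (G3 a b f0 f1 U D0 D1 DU).Ok := by
  have k0 := c11_comp2 h0 1 0
  have k1 := c11_comp2 h1 0 1
  have kU := c11_comp2 hU a b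
  have k := c11_add k0 (c11_add k1 kU)
  have e1 : (G3 a b f0 f1 U D0 D1 DU).F = fun z => f0 ((1 : ℝ) • y0 z + (0 : ℝ) • y1 z) +
      (f1 ((0 : ℝ) • y0 z + (1 : ℝ) • y1 z) + U (a • y0 z + b • y1 z)) := by
    funext z
    simp only [GD.F, G3, one_smul, zero_smul, add_zero, zero_add]
  have e2 : (G3 a b f0 f1 U D0 D1 DU).D = fun j z =>
      Sum.elim (fun e => 1 * D0 e ((1 : ℝ) • y0 z + (0 : ℝ) • y1 z))
        (fun e => 0 * D0 e ((1 : ℝ) • y0 z + (0 : ℝ) • y1 z)) j +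
      (Sum.elim (fun e => 0 * D1 e ((0 : ℝ) • y0 z + (1 : ℝ) • y1 z))
        (fun e => 1 * D1 e ((0 : ℝ) • y0 z + (1 : ℝ) • y1 z)) j +
        Sum.elim (fun e => a * DU e (a • y0 z + b • y1 z))
          (fun e => b * DU e (a • y0 z + b • y1 z)) j) := by
    funext j z
    rcases j with e | e <;>
      simp only [GD.D, G3, Sum.elim_inl, Sum.elim_inr, one_smul, zero_smul, add_zero, zero_add,
        one_mul, zero_mul]
  exact ⟨_, _, by rw [e1, e2]; exact k⟩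

theorem G3_row {R : Finset κ} {b0 b1 bU Bg : ℝ} (ha0 : 0 ≤ a) (ha1 : a ≤ 1) (hb0 : 0 ≤ b)
    (hb1 : b ≤ 1) (h0 : ∀ z, ∑ e ∈ R, D0 e z ^ 2 ≤ b0) (h1 : ∀ z, ∑ e ∈ R, D1 e z ^ 2 ≤ b1)
    (hU : ∀ z, ∑ e ∈ R, DU e z ^ 2 ≤ bU) (g0 : 2 * (b0 + bU) ≤ Bg) (g1 : 2 * (b1 + bU) ≤ Bg) :
    (G3 a b f0 f1 U D0 D1 DU).Row R Bg := by
  have key : ∀ (D' : κ → (κ → ℝ) → ℝ) (c b' : ℝ), 0 ≤ c → c ≤ 1 → (∀ z, ∑ e ∈ R, D' e z ^ 2 ≤ b') →
      ∀ z z', ∑ e ∈ R, (D' e z + c * DU e z') ^ 2 ≤ 2 * (b' + bU) := by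
    intro D' c b' hc0 hc1 hb' z z'
    have e1 : ∀ e ∈ R, (D' e z + c * DU e z') ^ 2 ≤ 2 * (D' e z ^ 2 + DU e z' ^ 2) := fun e _ => by
      have h2 : c ^ 2 ≤ 1 := pow_le_one₀ hc0 hc1
      have h3 := mul_le_mul_of_nonneg_right h2 (sq_nonneg (DU e z'))
      nlinarith [sq_nonneg (D' e z - c * DU e z')]
    refine (sum_le_sum e1).trans ?_
    rw [← mul_sum, sum_add_distrib]
    have := hb' z
    have := hU z'
    linarith
  intro z0 z1
  exact ⟨(key D0 a b0 ha0 ha1 h0 z0 _).trans g0, (key D1 b b1 hb0 hb1 h1 z1 _).trans g1⟩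

/-! ### the two-layer base -/

variable [DecidableEq κ] {F : (κ → ℝ) → ℝ} {D : κ → (κ → ℝ) → ℝ} {B L : ℝ} {q : Par} {y h : ℝ}
  {R : Finset κ}

/-- the value function at the time `t1 - h`: exponent `y` on `[t1 - h, t1]`, `q.x` afterwards -/
noncomputable def V2 (q : Par) (y h : ℝ) (F : (κ → ℝ) → ℝ) (z : κ → ℝ) : ℝ :=
  W y (√h) (uu q.x q.t1 F) z

/-- its gradient -/
noncomputable def DV2 (q : Par) (y h : ℝ) (F : (κ → ℝ) → ℝ) (D : κ → (κ → ℝ) → ℝ) (e : κ)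
    (z : κ → ℝ) : ℝ := DW y (√h) (uu q.x q.t1 F) (dd q.x q.t1 F D) e z

/-- the bridge coefficients -/
noncomputable def ca (q : Par) (h : ℝ) : ℝ := h / (q.t1 - q.t0)
noncomputable def cb (q : Par) (h : ℝ) : ℝ := (q.t1 - h - q.t0) / (q.t1 - q.t0)
noncomputable def cc (q : Par) (h : ℝ) : ℝ := √(h * (q.t1 - h - q.t0) / (q.t1 - q.t0))

/-- the mean of the bridge at the time `t1 - h` -/
noncomputable def mb (q : Par) (h : ℝ) (z0 z1 : κ → ℝ) : κ → ℝ := ca q h • z0 + cb q h • z1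

/-- The two-layer base: exponent `0` up to the time `t1 - h`, exponent `y` on `[t1 - h, t1]`. -/
noncomputable def GTwo (q : Par) (y h : ℝ) (F : (κ → ℝ) → ℝ) (D : κ → (κ → ℝ) → ℝ) : GD κ :=
  G3 (ca q h) (cb q h) (fun _ => 0) (fun z => (y - q.x) * uu q.x q.t1 F z)
    (fun z => y * W y (cc q h) (fun z => -1 * V2 q y h F z) z) (fun _ _ => 0)
    (fun e z => (y - q.x) * dd q.x q.t1 F D e z)
    (fun e z => y * DW y (cc q h) (fun z => -1 * V2 q y h F z) (fun e z => -1 * DV2 q y h F D e z) e z)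

/-- the mean of `φ (z_{t1-h})` over the tilted bridge from `z0` to `z1` -/
noncomputable def Br (q : Par) (y h : ℝ) (F : (κ → ℝ) → ℝ) (φ : (κ → ℝ) → ℝ) (z0 z1 : κ → ℝ) : ℝ :=
  Ax y (cc q h) (fun z => -1 * V2 q y h F z) φ (mb q h z0 z1)

lemma c11_V2 (hF : C11 F D B L) (hx : 0 < q.x) (hy : 0 < y) (h : ℝ) :
    ∃ L', C11 (V2 q y h F) (DV2 q y h F D) B L' := ⟨_, (c11_uu hF hx q.t1).W hy (√h)⟩

theorem GTwo_ok (hF : C11 F D B L) (hx : 0 < q.x) (hy : 0 < y) (h : ℝ) : (GTwo q y h F D).Ok := by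
  obtain ⟨L', hV⟩ := c11_V2 (q := q) hF hx hy h
  exact G3_ok c11_zero (c11_const_mul (c11_uu hF hx q.t1) _)
    (c11_const_mul ((c11_const_mul hV (-1)).W hy (cc q h)) _)

lemma DW_eq_Ax (x s : ℝ) (F : (κ → ℝ) → ℝ) (D : κ → (κ → ℝ) → ℝ) (e : κ) (z : κ → ℝ) :
    DW x s F D e z = Ax x s F (D e) z := rfl

lemma Ax_neg (x s : ℝ) (F φ : (κ → ℝ) → ℝ) (z : κ → ℝ) :
    Ax x s F (fun z => -1 * φ z) z = -Ax x s F φ z := by
  unfold Ax
  have : ∫ w, Real.exp (x * F (z + s • w)) * (-1 * φ (z + s • w)) ∂(gI κ) =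
      -∫ w, Real.exp (x * F (z + s • w)) * φ (z + s • w) ∂(gI κ) := by
    rw [← integral_neg]
    congr 1
    funext w
    ring
  rw [this, neg_div]

/-- the derivative in `z0`: a bridge mean of the gradient at the time `t1 - h` -/
lemma GTwo_d0 (e : κ) (z0 z1 : κ → ℝ) : (GTwo q y h F D).d0 e z0 z1 =
    -(ca q h * y * Br q y h F (DV2 q y h F D e) z0 z1) := by
  simp only [GTwo, G3, Br, mb, DW_eq_Ax, Ax_neg]
  ring

/-- the derivative in `z1` -/
lemma GTwo_d1 (e : κ) (z0 z1 : κ → ℝ) : (GTwo q y h F D).d1 e z0 z1 =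
    -((q.x - y) * dd q.x q.t1 F D e z1 + cb q h * y * Br q y h F (DV2 q y h F D e) z0 z1) := by
  simp only [GTwo, G3, Br, mb, DW_eq_Ax, Ax_neg]
  ring

/-- the log density -/
lemma GTwo_f (hF : C11 F D B L) (hx : 0 < q.x) (hy : 0 < y) (z0 z1 : κ → ℝ) :
    Real.exp ((GTwo q y h F D).f z0 z1) = Real.exp ((y - q.x) * uu q.x q.t1 F z1) *
      ∫ g, Real.exp (-(y * V2 q y h F (mb q h z0 z1 + cc q h • g))) ∂(gI κ) := by
  obtain ⟨L', hV⟩ := c11_V2 (q := q) hF hx hy h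
  have hN := c11_const_mul hV (-1)
  simp only [GTwo, G3, zero_add]
  rw [Real.exp_add, hN.lip.exp_W hN.B0 hy]
  congr 1
  refine integral_congr_ae (Filter.Eventually.of_forall fun g => ?_)
  simp only [mb]
  congr 1
  ring

/-- the squared gradient of a layer in the coordinates of `R` -/
lemma dW_row (hF : C11 F D B L) {y : ℝ} (hy : 0 < y) (s : ℝ) {Bd : ℝ}
    (hR : ∀ z, ∑ e ∈ R, D e z ^ 2 ≤ Bd) (z : κ → ℝ) : ∑ e ∈ R, DW y s F D e z ^ 2 ≤ Bd := by
  have eN : EG fun w => Real.exp (y * F (z + s • w)) := EG.add_smul (hF.eg_exp y) z s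
  have eD : ∀ e, EG fun w => D e (z + s • w) := fun e => EG.add_smul (hF.eg_D e) z s
  have hpos : 0 < ∫ w, Real.exp (y * F (z + s • w)) ∂(gI κ) := integral_exp_pos eN.integrable
  have h1 : ∀ e, (∫ w, Real.exp (y * F (z + s • w)) ∂(gI κ)) * DW y s F D e z ^ 2 ≤
      ∫ w, Real.exp (y * F (z + s • w)) * D e (z + s • w) ^ 2 ∂(gI κ) := fun e =>
    cs_int eN (fun w => (Real.exp_pos _).le) hpos (eD e)
  have h2 : (∫ w, Real.exp (y * F (z + s • w)) ∂(gI κ)) * ∑ e ∈ R, DW y s F D e z ^ 2 ≤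
      (∫ w, Real.exp (y * F (z + s • w)) ∂(gI κ)) * Bd := by
    rw [mul_sum]
    refine (sum_le_sum fun e _ => h1 e).trans ?_
    rw [← integral_finsetSum _ fun e _ => (eN.mul ((eD e).pow 2)).integrable, ← integral_mul_const]
    refine integral_mono (EG.sum _ fun e _ => eN.mul ((eD e).pow 2)).integrable
      (eN.integrable.mul_const _) fun w => ?_
    show ∑ e ∈ R, Real.exp (y * F (z + s • w)) * D e (z + s • w) ^ 2 ≤
      Real.exp (y * F (z + s • w)) * Bd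
    rw [← mul_sum]
    exact mul_le_mul_of_nonneg_left (hR _) (Real.exp_pos _).le
  exact le_of_mul_le_mul_left h2 hpos

/-- the conditions on the two-layer base -/
structure Two (q : Par) (y h : ℝ) : Prop where
  y0 : 0 < y
  yx : y ≤ q.x
  h0 : 0 ≤ h
  ht : q.t0 ≤ q.t1 - h
  h1 : q.t0 < q.t1

lemma Two.ca0 (hT : Two q y h) : 0 ≤ ca q h := div_nonneg hT.h0 (by linarith [hT.h1])
lemma Two.cb0 (hT : Two q y h) : 0 ≤ cb q h :=
  div_nonneg (by linarith [hT.ht]) (by linarith [hT.h1])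
lemma Two.cab (hT : Two q y h) : ca q h + cb q h = 1 := by
  have : q.t1 - q.t0 ≠ 0 := by linarith [hT.h1]
  unfold ca cb
  field_simp
  ring
lemma Two.ca1 (hT : Two q y h) : ca q h ≤ 1 := by linarith [hT.cab, hT.cb0]
lemma Two.cb1 (hT : Two q y h) : cb q h ≤ 1 := by linarith [hT.cab, hT.ca0]

/-- the row gradients of the two-layer base -/
theorem GTwo_row (hF : C11 F D B L) (hx : 0 < q.x) (hT : Two q y h) {Bd : ℝ}
    (hR : ∀ z, ∑ e ∈ R, D e z ^ 2 ≤ Bd) : (GTwo q y h F D).Row R (q.x ^ 2 * Bd) := by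
  have hy := hT.y0
  obtain ⟨L', hV⟩ := c11_V2 (q := q) hF hx hy h
  have hN := c11_const_mul hV (-1)
  have r1 : ∀ z, ∑ e ∈ R, dd q.x q.t1 F D e z ^ 2 ≤ Bd := dW_row hF hx _ hR
  have r2 : ∀ z, ∑ e ∈ R, DV2 q y h F D e z ^ 2 ≤ Bd := dW_row (c11_uu hF hx q.t1) hy _ r1
  have r3 : ∀ z, ∑ e ∈ R, (-1 * DV2 q y h F D e z) ^ 2 ≤ Bd := fun z => by
    refine le_trans (le_of_eq (sum_congr rfl fun e _ => by ring)) (r2 z)
  have r4 : ∀ z0 z1, ∑ e ∈ R, Br q y h F (DV2 q y h F D e) z0 z1 ^ 2 ≤ Bd := fun z0 z1 => by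
    refine le_trans (le_of_eq (sum_congr rfl fun e _ => ?_)) (dW_row (R := R) hN hy (cc q h) r3
      (mb q h z0 z1))
    rw [DW_eq_Ax, Ax_neg, neg_sq]
    rfl
  have hBd : 0 ≤ Bd := (sum_nonneg fun _ _ => sq_nonneg _).trans (r1 0)
  intro z0 z1
  constructor
  · have e1 : ∀ e ∈ R, (GTwo q y h F D).d0 e z0 z1 ^ 2 ≤
        q.x ^ 2 * Br q y h F (DV2 q y h F D e) z0 z1 ^ 2 := fun e _ => by
      rw [GTwo_d0, neg_sq, mul_pow]
      refine mul_le_mul_of_nonneg_right (pow_le_pow_left₀ (mul_nonneg hT.ca0 hy.le) ?_ 2)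
        (sq_nonneg _)
      calc ca q h * y ≤ 1 * y := mul_le_mul_of_nonneg_right hT.ca1 hy.le
        _ ≤ q.x := by rw [one_mul]; exact hT.yx
    refine (sum_le_sum e1).trans ?_
    rw [← mul_sum]
    exact mul_le_mul_of_nonneg_left (r4 z0 z1) (sq_nonneg _)
  · have hxy : 0 ≤ q.x - y := by linarith [hT.yx]
    have hcy : 0 ≤ cb q h * y := mul_nonneg hT.cb0 hy.le
    have hcy1 : cb q h * y ≤ y := by
      calc cb q h * y ≤ 1 * y := mul_le_mul_of_nonneg_right hT.cb1 hy.le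
        _ = y := one_mul y
    have hS : 0 ≤ (q.x - y) + cb q h * y := add_nonneg hxy hcy
    have e1 : ∀ e ∈ R, (GTwo q y h F D).d1 e z0 z1 ^ 2 ≤ ((q.x - y) + cb q h * y) *
        ((q.x - y) * dd q.x q.t1 F D e z1 ^ 2 +
          cb q h * y * Br q y h F (DV2 q y h F D e) z0 z1 ^ 2) := fun e _ => by
      rw [GTwo_d1, neg_sq]
      set u := dd q.x q.t1 F D e z1
      set v := Br q y h F (DV2 q y h F D e) z0 z1
      have h3 : 0 ≤ (q.x - y) * (cb q h * y) * (u - v) ^ 2 :=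
        mul_nonneg (mul_nonneg hxy hcy) (sq_nonneg _)
      nlinarith
    refine (sum_le_sum e1).trans ?_
    rw [← mul_sum, sum_add_distrib, ← mul_sum, ← mul_sum]
    have h4 : (q.x - y) * ∑ e ∈ R, dd q.x q.t1 F D e z1 ^ 2 +
        cb q h * y * ∑ e ∈ R, Br q y h F (DV2 q y h F D e) z0 z1 ^ 2 ≤
        ((q.x - y) + cb q h * y) * Bd := by
      have := mul_le_mul_of_nonneg_left (r1 z1) hxy
      have := mul_le_mul_of_nonneg_left (r4 z0 z1) hcy
      linarith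
    have h5 : (q.x - y) + cb q h * y ≤ q.x := by linarith
    calc _ ≤ ((q.x - y) + cb q h * y) * (((q.x - y) + cb q h * y) * Bd) :=
          mul_le_mul_of_nonneg_left h4 hS
      _ = ((q.x - y) + cb q h * y) ^ 2 * Bd := by ring
      _ ≤ q.x ^ 2 * Bd := mul_le_mul_of_nonneg_right (pow_le_pow_left₀ hS h5 2) hBd

end gen

end Vale.Agent.P146.R1C
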