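import Vale.Agent.P146.H130.GTwo
import Vale.Agent.P146.H693.LawT

/-!
Calculus of the bridge mean `Br` and the first identity of the two-layer law: the mean of
`Br φ (P0, P1)` is the Gaussian mean of `φ` at the time `t1 - h`.
-/

set_option linter.all false

open MeasureTheory ProbabilityTheory Finset

namespace Vale.Agent.P146.R1C

open Vale.Agent.P157.Lv Vale.Agent.P146.H425 Vale.Agent.P146.H712 Vale.Agent.P146.R1
  Vale.Agent.P146.H706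
open Vale.Agent.P146.H785 (Ax)

section br

variable {κ : Type} [Fintype κ] [DecidableEq κ] {F : (κ → ℝ) → ℝ} {D : κ → (κ → ℝ) → ℝ}
  {B L : ℝ} {q : Par} {y h : ℝ} {φ ψ : (κ → ℝ) → ℝ}

lemma c11_negV2 (hF : C11 F D B L) (hx : 0 < q.x) (hy : 0 < y) (h : ℝ) :
    ∃ B' L', C11 (fun z => -1 * V2 q y h F z) (fun e z => -1 * DV2 q y h F D e z) B' L' := by
  obtain ⟨L', hV⟩ := c11_V2 (q := q) hF hx hy h
  exact ⟨_, _, c11_const_mul hV (-1)⟩

variable (hF : C11 F D B L) (hx : 0 < q.x) (hy : 0 < y)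
include hF hx hy

lemma Br_add (hφ : EG φ) (hψ : EG ψ) (z0 z1 : κ → ℝ) :
    Br q y h F (fun z => φ z + ψ z) z0 z1 = Br q y h F φ z0 z1 + Br q y h F ψ z0 z1 := by
  obtain ⟨B', L', hN⟩ := c11_negV2 hF hx hy h
  exact H785.Ax_add hN.lip hN.B0 hφ hψ _ _ _

omit hF hx hy in
lemma Br_const_mul (c : ℝ) (φ : (κ → ℝ) → ℝ) (z0 z1 : κ → ℝ) :
    Br q y h F (fun z => c * φ z) z0 z1 = c * Br q y h F φ z0 z1 :=
  H785.Ax_const_mul c φ _ _ _

lemma Br_sum {ι : Type*} (s : Finset ι) {φ : ι → (κ → ℝ) → ℝ} (hφ : ∀ i ∈ s, EG (φ i))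
    (z0 z1 : κ → ℝ) : Br q y h F (fun z => ∑ i ∈ s, φ i z) z0 z1 =
      ∑ i ∈ s, Br q y h F (φ i) z0 z1 := by
  obtain ⟨B', L', hN⟩ := c11_negV2 hF hx hy h
  exact H785.Ax_sum hN.lip hN.B0 s hφ _ _ _

lemma Br_const (c : ℝ) (z0 z1 : κ → ℝ) : Br q y h F (fun _ => c) z0 z1 = c := by
  obtain ⟨B', L', hN⟩ := c11_negV2 hF hx hy h
  exact H785.Ax_const hN.lip hN.B0 c _ _ _

lemma Br_mono (hφ : EG φ) (hψ : EG ψ) (hle : ∀ z, φ z ≤ ψ z) (z0 z1 : κ → ℝ) :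
    Br q y h F φ z0 z1 ≤ Br q y h F ψ z0 z1 := by
  obtain ⟨B', L', hN⟩ := c11_negV2 hF hx hy h
  exact H785.Ax_mono hN.lip hN.B0 hφ hψ hle _ _ _

lemma Br_nonneg (hφ : EG φ) (h0 : ∀ z, 0 ≤ φ z) (z0 z1 : κ → ℝ) : 0 ≤ Br q y h F φ z0 z1 := by
  have := Br_mono (h := h) hF hx hy (EG.const 0) hφ h0 z0 z1
  rwa [Br_const hF hx hy] at this

lemma Br_le {C : ℝ} (hφ : EG φ) (hle : ∀ z, φ z ≤ C) (z0 z1 : κ → ℝ) :
    Br q y h F φ z0 z1 ≤ C := by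
  have := Br_mono (h := h) hF hx hy hφ (EG.const C) hle z0 z1
  rwa [Br_const hF hx hy] at this

lemma abs_Br_le {C : ℝ} (hm : Measurable φ) (hle : ∀ z, |φ z| ≤ C) (z0 z1 : κ → ℝ) :
    |Br q y h F φ z0 z1| ≤ C := by
  obtain ⟨B', L', hN⟩ := c11_negV2 hF hx hy h
  exact H785.Ax_abs_le hN.lip hN.B0 hm hle _ _ _

lemma Br_sq_le (hφ : EG φ) (z0 z1 : κ → ℝ) :
    Br q y h F φ z0 z1 ^ 2 ≤ Br q y h F (fun z => φ z ^ 2) z0 z1 := by
  obtain ⟨B', L', hN⟩ := c11_negV2 hF hx hy h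
  have := H785.Ax_sq_le hN.lip hN.B0 hφ y (cc q h) (mb q h z0 z1)
  refine this.trans (le_of_eq ?_)
  unfold Br
  congr 1
  funext z
  ring

/-- the bridge mean is a function of the class `EG` on the pairs of positions -/
lemma eg_Br (hφ : EG φ) : EG fun w : κ ⊕ κ → ℝ => Br q y h F φ (y0 w) (y1 w) := by
  obtain ⟨B', L', hN⟩ := c11_negV2 hF hx hy h
  have h1 : EG (Ax y (cc q h) (fun z => -1 * V2 q y h F z) φ) := R1.eg_Ax hN hφ _ _
  unfold Br mb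
  refine eg_compK h1 (A := fun w : κ ⊕ κ → ℝ => ca q h • y0 w + cb q h • y1 w)
    (by unfold y0 y1; fun_prop) (K := 0) (C := |ca q h| + |cb q h|) (by positivity)
    fun w => ?_
  refine (norm_add_le _ _).trans ?_
  rw [norm_smul, norm_smul, Real.norm_eq_abs, Real.norm_eq_abs]
  have n0 : ‖y0 w‖ ≤ ‖w‖ :=
    (pi_norm_le_iff_of_nonneg (norm_nonneg _)).2 fun _ => norm_le_pi_norm w _
  have n1 : ‖y1 w‖ ≤ ‖w‖ :=
    (pi_norm_le_iff_of_nonneg (norm_nonneg _)).2 fun _ => norm_le_pi_norm w _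
  have h2 := mul_le_mul_of_nonneg_left n0 (abs_nonneg (ca q h))
  have h3 := mul_le_mul_of_nonneg_left n1 (abs_nonneg (cb q h))
  linarith

/-- the bridge mean between the positions `P0`, `P1` -/
lemma eg_BrP (hφ : EG φ) : EG fun w : K4 κ → ℝ => Br q y h F φ (P0 q w) (P1 q w) :=
  eg_P01 (q := q) (eg_Br (h := h) hF hx hy hφ)

/-- **The law of the position at the time `t1 - h` is Gaussian.** -/
theorem EwG_Br (h0 : 0 < h) (ht0 : 0 ≤ q.t0) (ht : q.t0 ≤ q.t1 - h) (hs1 : q.t1 ≤ q.s1)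
    (hs2 : q.s1 ≤ q.s2) (hs3 : q.s2 ≤ 1) (hφ : EG φ) :
    EwG q (GTwo q y h F D) F (fun w => Br q y h F φ (P0 q w) (P1 q w)) =
      ∫ g, φ (√(q.t1 - h) • g) ∂(gI κ) := by
  have key := H693.lawT (q := q) (y := y) (l := h) (α := fun _ => 1) (β := φ) (γ := fun _ => 1)
    (δ := fun _ => 1) hF hx hy h0 ht hs1 hs2 hs3 (EG.const 1) hφ (EG.const 1) (EG.const 1)
  have hu := fun t => c11_uu hF hx t
  have e1 : Ax q.x (√(q.s2 - q.t1)) (uu q.x q.s2 F) (fun _ => (1 : ℝ)) = fun _ => 1 :=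
    funext fun z => H785.Ax_const (hu _).lip (hu q.s2).B0 1 _ _ z
  have e2 : ∀ z, Ax y (√h) (uu q.x q.t1 F) (fun _ => (1 : ℝ)) z = 1 := fun z =>
    H785.Ax_const (hu _).lip (hu q.t1).B0 1 _ _ z
  simp only [one_mul, mul_one, e1, e2] at key
  rw [key]
  have h3 := gI_rot hφ (a := √q.t0) (b := √(q.t1 - h - q.t0)) (c := √(q.t1 - h))
    (by rw [Real.sq_sqrt ht0, Real.sq_sqrt (by linarith), Real.sq_sqrt (by linarith)]; ring)
    (0 : κ → ℝ)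
  simp only [zero_add] at h3
  exact h3

end br

end Vale.Agent.P146.R1C
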