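import Vale.Agent.P146.H130.Br
import Vale.Agent.P146.H191.F1Ibp
import Vale.Agent.P146.H693.F0G
import Vale.Agent.P146.G8.Shared

/-!
The density `densG q G F` as an instance of `Den`, the drifts of the positions at the times `s1`,
`s2`, and the drift of the two-layer law in the matrices of the position system.
-/

set_option linter.all false

open MeasureTheory ProbabilityTheory Finset

namespace Vale.Agent.P146.H130

open Vale.Agent.P157.Lv Vale.Agent.P146.H425 Vale.Agent.P146.H325 Vale.Agent.P146.H332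
  Vale.Agent.P146.H712 Vale.Agent.P146.R1 Vale.Agent.P146.R1C Vale.Agent.P146.R1S
  Vale.Agent.P146.H706
open Vale.Agent.P146.H785 (Ax)
open Vale.Agent.P146.H191 (Den Im dr vr)

section gen

variable {κ : Type} [Fintype κ] [DecidableEq κ] {F : (κ → ℝ) → ℝ} {D : κ → (κ → ℝ) → ℝ}
  {B L : ℝ} {q : Par} {G : GD κ}

/-- **`densG` is a density in the sense of `Den`.** -/
theorem den_densG (h : C11 F D B L) (hx : 0 < q.x) (hG : G.Ok) :
    Den (densG q G F) (psiG' q G F D) where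
  eg := eg_densG h hx hG
  pd j := (pd_psiG h hx hG j).exp
  eg' j := eg_psiG' h hx hG j

lemma Im_densG (f : (K4 κ → ℝ) → ℝ) : Im (densG q G F) f = EwG q G F f := rfl

/-- the drift of the position at the time `s2` -/
theorem dr_G3 (hq : q.OkS) (e : κ) (w : K4 κ → ℝ) :
    dr (k3 q) (psiG' q G F D) e w = q.x * (q.s2 * dd q.x q.s2 F D e (P3 q w)) +
      (q.t0 * G.d0 e (P0 q w) (P1 q w) + q.t1 * G.d1 e (P0 q w) (P1 q w)) := by
  have a0 : √q.t0 ^ 2 = q.t0 := Real.sq_sqrt hq.h0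
  have a1 : √(q.t1 - q.t0) ^ 2 = q.t1 - q.t0 := Real.sq_sqrt (sub_nonneg.2 hq.h01)
  have a2 : √(q.s1 - q.t1) ^ 2 = q.s1 - q.t1 := Real.sq_sqrt (sub_nonneg.2 hq.h1)
  have a3 : √(q.s2 - q.s1) ^ 2 = q.s2 - q.s1 := Real.sq_sqrt (sub_nonneg.2 hq.h12)
  simp only [H191.dr, psiG', bs, H712.bl, k3, k1, k0, H712.q3, H712.q1, H712.q0, Matrix.cons_val]
  set r0 := √q.t0
  set r1 := √(q.t1 - q.t0)
  set r2 := √(q.s1 - q.t1)
  set r3 := √(q.s2 - q.s1)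
  have s3 : q.s2 = r0 ^ 2 + r1 ^ 2 + r2 ^ 2 + r3 ^ 2 := by rw [a0, a1, a2, a3]; ring
  have s1' : q.t1 = r0 ^ 2 + r1 ^ 2 := by rw [a0, a1]; ring
  have g3 : ∀ X : ℝ, q.s2 * X = (r0 ^ 2 + r1 ^ 2 + r2 ^ 2 + r3 ^ 2) * X := fun X => by rw [← s3]
  have g1 : ∀ X : ℝ, q.t1 * X = (r0 ^ 2 + r1 ^ 2) * X := fun X => by rw [← s1']
  have g0 : ∀ X : ℝ, q.t0 * X = r0 ^ 2 * X := fun X => by rw [a0]
  rw [g3 (dd q.x q.s2 F D e (P3 q w)), g1, g0]
  ring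

/-- the drift of the position at the time `s1` -/
theorem dr_G2 (hq : q.OkS) (e : κ) (w : K4 κ → ℝ) :
    dr (k2 q) (psiG' q G F D) e w = q.x * (q.s1 * dd q.x q.s2 F D e (P3 q w)) +
      (q.t0 * G.d0 e (P0 q w) (P1 q w) + q.t1 * G.d1 e (P0 q w) (P1 q w)) := by
  have a0 : √q.t0 ^ 2 = q.t0 := Real.sq_sqrt hq.h0
  have a1 : √(q.t1 - q.t0) ^ 2 = q.t1 - q.t0 := Real.sq_sqrt (sub_nonneg.2 hq.h01)
  have a2 : √(q.s1 - q.t1) ^ 2 = q.s1 - q.t1 := Real.sq_sqrt (sub_nonneg.2 hq.h1)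
  simp only [H191.dr, psiG', bs, H712.bl, k3, k2, k1, k0, H712.q3, H712.q2, H712.q1, H712.q0,
    Matrix.cons_val]
  set r0 := √q.t0
  set r1 := √(q.t1 - q.t0)
  set r2 := √(q.s1 - q.t1)
  set r3 := √(q.s2 - q.s1)
  have s2' : q.s1 = r0 ^ 2 + r1 ^ 2 + r2 ^ 2 := by rw [a0, a1, a2]; ring
  have s1' : q.t1 = r0 ^ 2 + r1 ^ 2 := by rw [a0, a1]; ring
  have g3 : ∀ X : ℝ, q.s1 * X = (r0 ^ 2 + r1 ^ 2 + r2 ^ 2) * X := fun X => by rw [← s2']
  have g1 : ∀ X : ℝ, q.t1 * X = (r0 ^ 2 + r1 ^ 2) * X := fun X => by rw [← s1']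
  have g0 : ∀ X : ℝ, q.t0 * X = r0 ^ 2 * X := fun X => by rw [a0]
  rw [g3 (dd q.x q.s2 F D e (P3 q w)), g1, g0]
  ring

/-- the drift of the position at the time `t1` -/
theorem dr_G1 (hq : q.OkS) (e : κ) (w : K4 κ → ℝ) :
    dr (k1 q) (psiG' q G F D) e w = q.x * (q.t1 * dd q.x q.s2 F D e (P3 q w)) +
      (q.t0 * G.d0 e (P0 q w) (P1 q w) + q.t1 * G.d1 e (P0 q w) (P1 q w)) := by
  have a0 : √q.t0 ^ 2 = q.t0 := Real.sq_sqrt hq.h0
  have a1 : √(q.t1 - q.t0) ^ 2 = q.t1 - q.t0 := Real.sq_sqrt (sub_nonneg.2 hq.h01)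
  simp only [H191.dr, psiG', bs, H712.bl, k3, k1, k0, H712.q3, H712.q1, H712.q0, Matrix.cons_val]
  set r0 := √q.t0
  set r1 := √(q.t1 - q.t0)
  set r2 := √(q.s1 - q.t1)
  set r3 := √(q.s2 - q.s1)
  have s1' : q.t1 = r0 ^ 2 + r1 ^ 2 := by rw [a0, a1]; ring
  have g1 : ∀ X : ℝ, q.t1 * X = (r0 ^ 2 + r1 ^ 2) * X := fun X => by rw [← s1']
  have g0 : ∀ X : ℝ, q.t0 * X = r0 ^ 2 * X := fun X => by rw [a0]
  rw [g1 (dd q.x q.s2 F D e (P3 q w)), g1, g0]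
  ring

lemma vr_k2 (hq : q.OkS) : vr (k2 q) = q.s1 := by
  have a0 : √q.t0 ^ 2 = q.t0 := Real.sq_sqrt hq.h0
  have a1 : √(q.t1 - q.t0) ^ 2 = q.t1 - q.t0 := Real.sq_sqrt (sub_nonneg.2 hq.h01)
  have a2 : √(q.s1 - q.t1) ^ 2 = q.s1 - q.t1 := Real.sq_sqrt (sub_nonneg.2 hq.h1)
  simp only [H191.vr, k2, H712.q2, Matrix.cons_val]
  rw [a0, a1, a2]
  ring

lemma vr_k1 (hq : q.OkS) : vr (k1 q) = q.t1 := by
  have a0 : √q.t0 ^ 2 = q.t0 := Real.sq_sqrt hq.h0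
  have a1 : √(q.t1 - q.t0) ^ 2 = q.t1 - q.t0 := Real.sq_sqrt (sub_nonneg.2 hq.h01)
  simp only [H191.vr, k1, H712.q1, Matrix.cons_val]
  rw [a0, a1]
  ring

/-- the covariance of the positions at the times `s1`, `s2` -/
lemma cv_k23 (hq : q.OkS) : k2 q 0 * k3 q 0 + k2 q 1 * k3 q 1 + k2 q 2 * k3 q 2 +
    k2 q 3 * k3 q 3 = q.s1 := by
  have a0 : √q.t0 ^ 2 = q.t0 := Real.sq_sqrt hq.h0
  have a1 : √(q.t1 - q.t0) ^ 2 = q.t1 - q.t0 := Real.sq_sqrt (sub_nonneg.2 hq.h01)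
  have a2 : √(q.s1 - q.t1) ^ 2 = q.s1 - q.t1 := Real.sq_sqrt (sub_nonneg.2 hq.h1)
  simp only [k2, k3, H712.q2, H712.q3, Matrix.cons_val]
  nlinarith

/-- the base part of the drift of the two-layer law -/
theorem base_two {y h : ℝ} (h1 : q.t0 < q.t1) (e : κ) (z0 z1 : κ → ℝ) :
    q.t0 * (GTwo q y h F D).d0 e z0 z1 + q.t1 * (GTwo q y h F D).d1 e z0 z1 =
      -((q.x - y) * (q.t1 * dd q.x q.t1 F D e z1) +
        y * ((q.t1 - h) * Br q y h F (DV2 q y h F D e) z0 z1)) := by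
  have ht : q.t0 * R1C.ca q h + q.t1 * R1C.cb q h = q.t1 - h := by
    have : q.t1 - q.t0 ≠ 0 := by linarith
    unfold R1C.ca R1C.cb
    field_simp
    ring
  rw [GTwo_d0, GTwo_d1]
  set v := Br q y h F (DV2 q y h F D e) z0 z1
  have : y * ((q.t1 - h) * v) = (q.t0 * R1C.ca q h + q.t1 * R1C.cb q h) * (y * v) := by rw [ht]; ring
  rw [this]
  ring

end gen

section sys

variable {n : ℕ} {k : ℝ} {q : Par} (S : CS n k q.x) (y h : ℝ)

/-- the base part of the drift of the two-layer law, as a matrix -/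
noncomputable def BT (w : K4 (Pair n) → ℝ) (i j : Fin n) : ℝ :=
  (q.x - y) * (q.t1 * S.A q.t1 (P1 q w) i j) +
    y * ((q.t1 - h) * Br q y h S.F (H693.Ca S y h i j) (P0 q w) (P1 q w))

variable {S y h}

lemma DV2_Ca (e : Pair n) : DV2 q y h S.F S.D e = fun z => k * H693.Ca S y h e.1.1 e.1.2 z := by
  funext z
  unfold DV2 H693.Ca
  rw [DW_eq_Ax]
  have : dd q.x q.t1 S.F S.D e = fun u => k * S.A q.t1 u e.1.1 e.1.2 := by
    funext u
    exact S.dd_eq q.t1 e u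
  rw [this]
  exact H785.Ax_const_mul k _ _ _ _

lemma eg_Ca (i j : Fin n) : EG (H693.Ca S y h i j) :=
  R1.eg_Ax (c11_uu S.c11 S.x0 q.t1) (S.eg_A q.t1 i j) _ _

lemma Ca_comm (i j : Fin n) (z : Pair n → ℝ) : H693.Ca S y h i j z = H693.Ca S y h j i z := by
  unfold H693.Ca
  congr 1
  funext u
  exact S.A_comm q.t1 u i j

lemma BT_comm (w : K4 (Pair n) → ℝ) (i j : Fin n) : BT S y h w i j = BT S y h w j i := by
  unfold BT
  rw [S.A_comm q.t1 _ i j]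
  congr 3
  congr 1
  funext z
  exact Ca_comm i j z

lemma eg_BT (hy : 0 < y) (i j : Fin n) : EG fun w => BT S y h w i j :=
  (((eg_P1 (S.eg_A q.t1 i j)).const_mul _).const_mul _).add
    (((eg_BrP S.c11 S.x0 hy (eg_Ca i j)).const_mul _).const_mul _)

lemma base_BT (h1 : q.t0 < q.t1) (e : Pair n) (w : K4 (Pair n) → ℝ) :
    q.t0 * (GTwo q y h S.F S.D).d0 e (P0 q w) (P1 q w) +
      q.t1 * (GTwo q y h S.F S.D).d1 e (P0 q w) (P1 q w) = -(k * BT S y h w e.1.1 e.1.2) := by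
  rw [base_two h1, DV2_Ca, Br_const_mul, S.dd_eq]
  unfold BT
  ring

/-- **the drift of the position at the time `s2` in the two-layer law** -/
theorem dr_two3 (hq : q.OkS) (h1 : q.t0 < q.t1) (e : Pair n) (w : K4 (Pair n) → ℝ) :
    dr (k3 q) (psiG' q (GTwo q y h S.F S.D) S.F S.D) e w =
      k * (q.x * q.s2 * S.A q.s2 (H712.lp (k3 q) w) e.1.1 e.1.2 -
        BT S y h w e.1.1 e.1.2) := by
  rw [dr_G3 hq, base_BT h1, S.dd_eq, R1C.P3_lp]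
  ring

/-- **the drift of the position at the time `s1` in the two-layer law** -/
theorem dr_two2 (hq : q.OkS) (h1 : q.t0 < q.t1) (e : Pair n) (w : K4 (Pair n) → ℝ) :
    dr (k2 q) (psiG' q (GTwo q y h S.F S.D) S.F S.D) e w =
      k * (q.x * q.s1 * S.A q.s2 (H712.lp (k3 q) w) e.1.1 e.1.2 -
        BT S y h w e.1.1 e.1.2) := by
  rw [dr_G2 hq, base_BT h1, S.dd_eq, R1C.P3_lp]
  ring

/-- **the drift of the position at the time `t1` in the two-layer law** -/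
theorem dr_two1 (hq : q.OkS) (h1 : q.t0 < q.t1) (e : Pair n) (w : K4 (Pair n) → ℝ) :
    dr (k1 q) (psiG' q (GTwo q y h S.F S.D) S.F S.D) e w =
      k * (q.x * q.t1 * S.A q.s2 (H712.lp (k3 q) w) e.1.1 e.1.2 -
        BT S y h w e.1.1 e.1.2) := by
  rw [dr_G1 hq, base_BT h1, S.dd_eq, R1C.P3_lp]
  ring

end sys

end Vale.Agent.P146.H130
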