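import Vale.Agent.P146.H706.LawK
import Vale.Agent.P146.H325.Fo
import Vale.Agent.P146.H712.EnCalc
import Vale.Agent.P146.H797.OkS
import Vale.Agent.P146.H797.H712_Pos

/-!
The law on the coordinates `K4 κ` with a general base density `exp (G (z0, z1))` in the place of
`exp (θ ξ (z0, z1))`: density `exp (x u_{s2} (z3) + G (z0, z1))`.
-/

set_option linter.all false

open MeasureTheory ProbabilityTheory Finset

namespace Vale.Agent.P146.R1C

open Vale.Agent.P157.Lv Vale.Agent.P146.H425 Vale.Agent.P146.H712 Vale.Agent.P146.R1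
  Vale.Agent.P146.H706

/-- A base log density, a function of the positions `z0`, `z1`, and its partial derivatives in the
coordinates of `z0` and of `z1`. -/
structure GD (κ : Type) where
  f : (κ → ℝ) → (κ → ℝ) → ℝ
  d0 : κ → (κ → ℝ) → (κ → ℝ) → ℝ
  d1 : κ → (κ → ℝ) → (κ → ℝ) → ℝ

section gen

variable {κ : Type}

/-- the two blocks of a pair of positions -/
def y0 (y : κ ⊕ κ → ℝ) : κ → ℝ := fun e => y (Sum.inl e)
/-- the two blocks of a pair of positions -/
def y1 (y : κ ⊕ κ → ℝ) : κ → ℝ := fun e => y (Sum.inr e)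

/-- the base log density as a function of a pair of positions -/
def GD.F (G : GD κ) (y : κ ⊕ κ → ℝ) : ℝ := G.f (y0 y) (y1 y)

/-- its gradient -/
def GD.D (G : GD κ) (j : κ ⊕ κ) (y : κ ⊕ κ → ℝ) : ℝ :=
  Sum.elim (fun e => G.d0 e (y0 y) (y1 y)) (fun e => G.d1 e (y0 y) (y1 y)) j

variable [Fintype κ]

/-- Regularity of the base log density. -/
structure GD.Ok (G : GD κ) : Prop where
  c11 : ∃ B L : ℝ, C11 G.F G.D B L

/-- The row gradients of the base log density are bounded. -/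
def GD.Row (G : GD κ) (R : Finset κ) (Bg : ℝ) : Prop :=
  ∀ z0 z1, ∑ e ∈ R, G.d0 e z0 z1 ^ 2 ≤ Bg ∧ ∑ e ∈ R, G.d1 e z0 z1 ^ 2 ≤ Bg

/-- the log density -/
noncomputable def psiG (q : Par) (G : GD κ) (F : (κ → ℝ) → ℝ) (w : K4 κ → ℝ) : ℝ :=
  q.x * uu q.x q.s2 F (P3 q w) + G.f (P0 q w) (P1 q w)

/-- its partial derivatives -/
noncomputable def psiG' (q : Par) (G : GD κ) (F : (κ → ℝ) → ℝ) (D : κ → (κ → ℝ) → ℝ) (j : K4 κ)
    (w : K4 κ → ℝ) : ℝ :=
  q.x * (k3 q (bl j) * dd q.x q.s2 F D (bs j) (P3 q w)) +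
    (k0 q (bl j) * G.d0 (bs j) (P0 q w) (P1 q w) + k1 q (bl j) * G.d1 (bs j) (P0 q w) (P1 q w))

/-- the density -/
noncomputable def densG (q : Par) (G : GD κ) (F : (κ → ℝ) → ℝ) (w : K4 κ → ℝ) : ℝ :=
  Real.exp (psiG q G F w)

/-- The mean, not normalized. -/
noncomputable def EwG (q : Par) (G : GD κ) (F : (κ → ℝ) → ℝ) (Φ : (K4 κ → ℝ) → ℝ) : ℝ :=
  ∫ w, densG q G F w * Φ w ∂(gI (K4 κ))

/-- The mean. -/
noncomputable def EnG (q : Par) (G : GD κ) (F : (κ → ℝ) → ℝ) (Φ : (K4 κ → ℝ) → ℝ) : ℝ :=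
  EwG q G F Φ / EwG q G F (fun _ => 1)

variable [DecidableEq κ] {F : (κ → ℝ) → ℝ} {D : κ → (κ → ℝ) → ℝ}
  {B L : ℝ} {q : Par} {R : Finset κ} {G : GD κ}

lemma densG_eq (w : K4 κ → ℝ) : densG q G F w = Real.exp (psiG q G F w) := rfl

lemma densG_pos (w : K4 κ → ℝ) : 0 < densG q G F w := Real.exp_pos _

lemma densG_nonneg (w : K4 κ → ℝ) : 0 ≤ densG q G F w := (Real.exp_pos _).le

/-! ### the pair of positions `(z0, z1)` -/

/-- the pair of the positions `z0`, `z1` -/
noncomputable def P01 (q : Par) (w : K4 κ → ℝ) : κ ⊕ κ → ℝ := Sum.elim (P0 q w) (P1 q w)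

lemma y0_P01 (w : K4 κ → ℝ) : y0 (P01 q w) = P0 q w := rfl
lemma y1_P01 (w : K4 κ → ℝ) : y1 (P01 q w) = P1 q w := rfl

lemma GF_P01 (w : K4 κ → ℝ) : G.F (P01 q w) = G.f (P0 q w) (P1 q w) := rfl

lemma lp_sub (c : Fin 4 → ℝ) (w w' : K4 κ → ℝ) : lp c w - lp c w' = lp c (w - w') := by
  funext e
  simp only [H712.lp, Pi.sub_apply]
  ring

lemma P01_sub (w w' : K4 κ → ℝ) : P01 q w - P01 q w' = P01 q (w - w') := by
  funext j
  rcases j with e | e
  · have := congrFun (lp_sub (k0 q) w w') e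
    simpa only [P01, Sum.elim_inl, Pi.sub_apply, P0_lp] using this
  · have := congrFun (lp_sub (k1 q) w w') e
    simpa only [P01, Sum.elim_inr, Pi.sub_apply, P1_lp] using this

/-- the norm of the pair -/
noncomputable def cP (q : Par) : ℝ :=
  (|k0 q 0| + |k0 q 1| + |k0 q 2| + |k0 q 3|) + (|k1 q 0| + |k1 q 1| + |k1 q 2| + |k1 q 3|)

lemma cP_nonneg : 0 ≤ cP q := by unfold cP; positivity

lemma norm_P01_le (w : K4 κ → ℝ) : ‖P01 q w‖ ≤ cP q * ‖w‖ := by
  refine (pi_norm_le_iff_of_nonneg (mul_nonneg cP_nonneg (norm_nonneg _))).2 fun j => ?_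
  have hw := norm_nonneg w
  rcases j with e | e
  · have h1 := (norm_le_pi_norm (lp (k0 q) w) e).trans (norm_lp_le (k0 q) w)
    refine le_trans (le_of_eq ?_) (h1.trans (mul_le_mul_of_nonneg_right ?_ hw))
    · simp only [P01, Sum.elim_inl, P0_lp]
    · unfold cP
      have : 0 ≤ |k1 q 0| + |k1 q 1| + |k1 q 2| + |k1 q 3| := by positivity
      linarith
  · have h1 := (norm_le_pi_norm (lp (k1 q) w) e).trans (norm_lp_le (k1 q) w)
    refine le_trans (le_of_eq ?_) (h1.trans (mul_le_mul_of_nonneg_right ?_ hw))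
    · simp only [P01, Sum.elim_inr, P1_lp]
    · unfold cP
      have : 0 ≤ |k0 q 0| + |k0 q 1| + |k0 q 2| + |k0 q 3| := by positivity
      linarith

lemma continuous_P01 : Continuous (P01 (κ := κ) q) := by
  refine continuous_pi fun j => ?_
  rcases j with e | e
  · have h : Continuous fun w : K4 κ → ℝ => lp (k0 q) w e :=
      (continuous_apply e).comp (continuous_lp (k0 q))
    simpa only [P01, Sum.elim_inl, P0_lp] using h
  · have h : Continuous fun w : K4 κ → ℝ => lp (k1 q) w e :=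
      (continuous_apply e).comp (continuous_lp (k1 q))
    simpa only [P01, Sum.elim_inr, P1_lp] using h

/-- a function of the pair -/
lemma eg_P01 {f : (κ ⊕ κ → ℝ) → ℝ} (hf : EG f) : EG fun w : K4 κ → ℝ => f (P01 q w) := by
  obtain ⟨C, a, hC, ha, hb⟩ := hf.bdd
  refine ⟨hf.meas.comp continuous_P01.measurable, C, a * cP q, hC,
    mul_nonneg ha cP_nonneg, fun w => (hb _).trans ?_⟩
  rw [mul_assoc]
  exact mul_le_mul_of_nonneg_left (Real.exp_le_exp.2
    (mul_le_mul_of_nonneg_left (norm_P01_le w) ha)) hC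

lemma lip_P01 {f : (κ ⊕ κ → ℝ) → ℝ} (hf : Lip f) : Lip fun w : K4 κ → ℝ => f (P01 q w) := by
  refine lip_b hf (c := cP q) cP_nonneg fun w w' => ?_
  rw [P01_sub]
  exact norm_P01_le _

lemma P01_update (w : K4 κ → ℝ) (j : K4 κ) (t t' : ℝ) :
    P01 q (Function.update w j t') = P01 q (Function.update w j t) + (t' - t) •
      (Sum.elim (fun e => if e = bs j then k0 q (bl j) else 0)
        (fun e => if e = bs j then k1 q (bl j) else 0) : κ ⊕ κ → ℝ) := by
  funext i
  rcases i with e | e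
  · simp only [P01, Sum.elim_inl, P0_lp, lp_update, Pi.add_apply, Pi.smul_apply, smul_eq_mul]
    by_cases he : e = bs j
    · subst he
      simp only [Function.update_self, if_true]
      ring
    · simp only [Function.update_of_ne he, if_neg he]
      ring
  · simp only [P01, Sum.elim_inr, P1_lp, lp_update, Pi.add_apply, Pi.smul_apply, smul_eq_mul]
    by_cases he : e = bs j
    · subst he
      simp only [Function.update_self, if_true]
      ring
    · simp only [Function.update_of_ne he, if_neg he]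
      ring

/-- **the chain rule** for a function of the pair -/
lemma pd_P01 {f : (κ ⊕ κ → ℝ) → ℝ} {D : κ ⊕ κ → (κ ⊕ κ → ℝ) → ℝ} {B L : ℝ} (h : C11 f D B L)
    (j : K4 κ) : PD j (fun w => f (P01 q w)) (fun w => k0 q (bl j) * D (Sum.inl (bs j)) (P01 q w) +
      k1 q (bl j) * D (Sum.inr (bs j)) (P01 q w)) := by
  intro w t
  set v : κ ⊕ κ → ℝ := Sum.elim (fun e => if e = bs j then k0 q (bl j) else 0)
    (fun e => if e = bs j then k1 q (bl j) else 0) with hv
  set y : κ ⊕ κ → ℝ := P01 q (Function.update w j t) with hy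
  have e1 : ∀ t', P01 q (Function.update w j t') = y + (t' - t) • v := fun t' => P01_update w j t t'
  have e2 : ∑ i, D i y * v i = k0 q (bl j) * D (Sum.inl (bs j)) y +
      k1 q (bl j) * D (Sum.inr (bs j)) y := by
    rw [Fintype.sum_sum_type]
    simp only [hv, Sum.elim_inl, Sum.elim_inr, mul_ite, mul_zero, Finset.sum_ite_eq',
      Finset.mem_univ, if_true]
    ring
  rw [hasDerivAt_iff_isLittleO]
  refine Asymptotics.IsBigO.trans_isLittleO (g := fun t' => (t' - t) ^ 2) ?_ ?_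
  · refine Asymptotics.IsBigO.of_bound (L * ‖v‖ ^ 2) (Filter.Eventually.of_forall fun t' => ?_)
    have h1 := h.quad y ((t' - t) • v)
    have e3 : ∑ i, D i y * ((t' - t) • v) i = (t' - t) * ∑ i, D i y * v i := by
      rw [Finset.mul_sum]
      refine Finset.sum_congr rfl fun i _ => ?_
      simp only [Pi.smul_apply, smul_eq_mul]
      ring
    rw [e3, e2, norm_smul, mul_pow, Real.norm_eq_abs, sq_abs] at h1
    simp only [e1 t', smul_eq_mul, Real.norm_eq_abs]
    rw [abs_of_nonneg (sq_nonneg (t' - t))]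
    calc _ = |f (y + (t' - t) • v) - f y - (t' - t) * (k0 q (bl j) * D (Sum.inl (bs j)) y +
          k1 q (bl j) * D (Sum.inr (bs j)) y)| := by rw [← hy]
      _ ≤ L * ((t' - t) ^ 2 * ‖v‖ ^ 2) := h1
      _ = _ := by ring
  · have h2 : (fun t' : ℝ => (t' - t) ^ 2) = fun t' => (t' - t) * (t' - t) := by
      funext t'; ring
    rw [h2]
    have h3 : Filter.Tendsto (fun t' : ℝ => t' - t) (nhds t) (nhds 0) := by
      have hc : Continuous fun t' : ℝ => t' - t := continuous_id.sub continuous_const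
      have := hc.tendsto t
      simpa only [sub_self] using this
    have h4 := (Asymptotics.isLittleO_one_iff ℝ).2 h3
    have h5 := h4.mul_isBigO (Asymptotics.isBigO_refl (fun t' : ℝ => t' - t) (nhds t))
    simpa only [one_mul] using h5

lemma GD.Ok.lip (hG : G.Ok) : Lip G.F := by
  obtain ⟨B, L, h⟩ := hG.c11
  exact h.lip.lip h.B0

lemma GD.Ok.eg0 (hG : G.Ok) (e : κ) : EG fun w : K4 κ → ℝ => G.d0 e (P0 q w) (P1 q w) := by
  obtain ⟨B, L, h⟩ := hG.c11
  exact eg_P01 (q := q) (h.eg_D (Sum.inl e))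

lemma GD.Ok.eg1 (hG : G.Ok) (e : κ) : EG fun w : K4 κ → ℝ => G.d1 e (P0 q w) (P1 q w) := by
  obtain ⟨B, L, h⟩ := hG.c11
  exact eg_P01 (q := q) (h.eg_D (Sum.inr e))

lemma GD.Ok.egf (hG : G.Ok) : EG fun w : K4 κ → ℝ => G.f (P0 q w) (P1 q w) :=
  eg_P01 (q := q) hG.lip.eg

lemma lip_psiG (h : C11 F D B L) (hx : 0 < q.x) (hG : G.Ok) : Lip (psiG q G F) := by
  have l : Lip (uu q.x q.s2 F) := (c11_uu h hx q.s2).lip.lip h.B0
  have e : psiG q G F = fun w => q.x * uu q.x q.s2 F (lp (k3 q) w) + G.F (P01 q w) := by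
    funext w
    unfold psiG
    rw [P3_lp]
    rfl
  rw [e]
  exact ((lip_lp _ l).const_mul _).add (lip_P01 hG.lip)

lemma pd_psiG (h : C11 F D B L) (hx : 0 < q.x) (hG : G.Ok) (j : K4 κ) :
    PD j (psiG q G F) (psiG' q G F D j) := by
  obtain ⟨B', L', hC⟩ := hG.c11
  have p : PD (bs j) (uu q.x q.s2 F) (dd q.x q.s2 F D (bs j)) := (c11_uu h hx q.s2).pd _
  exact ((pd_P3 p).const_mul _).add (pd_P01 (q := q) hC j)

lemma eg_psiG' (h : C11 F D B L) (hx : 0 < q.x) (hG : G.Ok) (j : K4 κ) : EG (psiG' q G F D j) :=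
  (((eg_P3 (eg_dd h hx _ _)).const_mul _).const_mul _).add
    (((hG.eg0 _).const_mul _).add ((hG.eg1 _).const_mul _))

lemma eg_densG (h : C11 F D B L) (hx : 0 < q.x) (hG : G.Ok) : EG (densG q G F) := by
  have := (lip_psiG (q := q) h hx hG).exp_eg 1
  simp only [one_mul] at this
  exact this

lemma EwG_one_pos (h : C11 F D B L) (hx : 0 < q.x) (hG : G.Ok) : 0 < EwG q G F (fun _ => 1) := by
  unfold EwG
  simp only [mul_one, densG_eq]
  have h1 : EG fun w => Real.exp (psiG q G F w) := eg_densG (q := q) h hx hG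
  exact integral_exp_pos h1.integrable

end gen

end Vale.Agent.P146.R1C
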