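import Vale.Agent.P146.H130.GTwo
import Vale.Agent.P146.H784.LawN
import Vale.Agent.P146.H941.McolS
import Vale.Agent.P146.H130.Br

/-!
The two-layer base `GTwo` of a position system: row gradients, and the fourth moments of the row
gradients of the log density (the hypothesis `H4G` of the law change).
-/

set_option linter.all false

open MeasureTheory ProbabilityTheory Finset

namespace Vale.Agent.P146.R1S

open Vale.Agent.P157.Lv Vale.Agent.P146.H425 Vale.Agent.P146.H325 Vale.Agent.P146.H332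
  Vale.Agent.P146.H712 Vale.Agent.P146.R1 Vale.Agent.P146.R1C Vale.Agent.P146.H706
open Vale.Agent.P146.H785 (Ax)
open Vale.Agent.P146.H326 (mom2)

section col

variable {n : ℕ} {k x s : ℝ} {b : Fin n} (S : CS n k x) (c : Fin 4 → ℝ)

lemma sum_Uc'_le_v (hs : 0 < s) (w : K4 (Pair n) → ℝ) :
    ∑ i, ∑ j ∈ lf (row b), Uc' S s c b i j w ^ 2 ≤
      (c 0 ^ 2 + c 1 ^ 2 + c 2 ^ 2 + c 3 ^ 2) * (k ^ 2 * fr (S.A s (H712.lp c w))) := by
  have h1 : ∀ i, ∑ j ∈ lf (row b), Uc' S s c b i j w ^ 2 ≤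
      (c 0 ^ 2 + c 1 ^ 2 + c 2 ^ 2 + c 3 ^ 2) *
        ∑ e ∈ row b, S.DA s e (H712.lp c w) i b ^ 2 := by
    intro i
    have h2 := sum_lp_sq c (row b) fun e => S.DA s e (H712.lp c w) i b
    rw [← h2]
    refine Finset.sum_le_sum fun j _ => ?_
    unfold Uc'
    split_ifs
    · rw [zero_pow two_ne_zero]; exact sq_nonneg _
    · exact le_rfl
  refine (Finset.sum_le_sum fun i _ => h1 i).trans ?_
  rw [← Finset.mul_sum, Finset.sum_comm]
  exact mul_le_mul_of_nonneg_left (S.row_grad hs b _) (by positivity)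

lemma eg_fr_lp : EG fun w : K4 (Pair n) → ℝ => fr (S.A s (H712.lp c w)) := by
  unfold fr
  exact EG.sum _ fun i _ => EG.sum _ fun j _ => (eg_lp c (S.eg_A s i j)).pow 2

/-- **Fourth moments of a column at a position of any variance.** -/
theorem col4_v (hs : 0 < s) {φ : (K4 (Pair n) → ℝ) → ℝ} (hφ : EG φ) (h0 : ∀ w, 0 ≤ φ w)
    (hi : Ind (lf (row b)) φ) :
    ∫ w, φ w * vn (H816.col (S.A s (H712.lp c w)) b) ^ 2 ∂(gI (K4 (Pair n))) ≤
      2 * ((∫ w, φ w ∂(gI (K4 (Pair n)))) +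
        18 * ∫ w, φ w * ((c 0 ^ 2 + c 1 ^ 2 + c 2 ^ 2 + c 3 ^ 2) *
          (k ^ 2 * fr (S.A s (H712.lp c w)))) ^ 2 ∂(gI (K4 (Pair n)))) := by
  set V := c 0 ^ 2 + c 1 ^ 2 + c 2 ^ 2 + c 3 ^ 2 with hV
  have hV0 : 0 ≤ V := by positivity
  have eU : EG fun w => ∑ i, Uc S s c b i w ^ 2 := EG.sum _ fun i _ => (eg_Uc S c i).pow 2
  have eY : EG fun w : K4 (Pair n) → ℝ => V * (k ^ 2 * fr (S.A s (H712.lp c w))) :=
    ((eg_fr_lp S c).const_mul _).const_mul _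
  have hz : ∀ z, Av (lf (row b)) (fun w => (∑ i, Uc S s c b i w ^ 2) ^ 2) z ≤
      18 * Av (lf (row b)) (fun w => (V * (k ^ 2 * fr (S.A s (H712.lp c w)))) ^ 2) z := by
    intro z
    refine (mom2 (eg_Uc S c) (fun i j _ => pd_Uc S c i j) (eg_Uc' S c) z
      fun i => Av_Uc S c i z).trans (mul_le_mul_of_nonneg_left ?_ (by norm_num))
    refine Av_mono ((EG.sum _ fun i _ => EG.sum _ fun j _ => (eg_Uc' S c i j).pow 2).pow 2)
      (eY.pow 2) (fun w => ?_) z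
    exact pow_le_pow_left₀ (Finset.sum_nonneg fun i _ => Finset.sum_nonneg fun j _ => sq_nonneg _)
      (sum_Uc'_le_v S c hs w) 2
  have key : ∫ w, φ w * (∑ i, Uc S s c b i w ^ 2) ^ 2 ∂(gI (K4 (Pair n))) ≤
      18 * ∫ w, φ w * (V * (k ^ 2 * fr (S.A s (H712.lp c w)))) ^ 2 ∂(gI (K4 (Pair n))) := by
    rw [integral_weight hφ hi (eU.pow 2), integral_weight hφ hi (eY.pow 2),
      ← integral_const_mul]
    refine integral_mono (hφ.mul (eg_Av _ (eU.pow 2))).integrable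
      ((hφ.mul (eg_Av _ (eY.pow 2))).integrable.const_mul 18) fun w => ?_
    have := mul_le_mul_of_nonneg_left (hz w) (h0 w)
    calc _ ≤ _ := this
      _ = _ := by ring
  have h1 : ∫ w, φ w * vn (H816.col (S.A s (H712.lp c w)) b) ^ 2 ∂(gI (K4 (Pair n))) ≤
      ∫ w, 2 * (φ w + φ w * (∑ i, Uc S s c b i w ^ 2) ^ 2) ∂(gI (K4 (Pair n))) := by
    simp only [vn_col_Uc S c]
    refine integral_mono (hφ.mul (((EG.const 1).add eU).pow 2)).integrable
      ((hφ.add (hφ.mul (eU.pow 2))).const_mul 2).integrable fun w => ?_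
    show φ w * (1 + ∑ i, Uc S s c b i w ^ 2) ^ 2 ≤
      2 * (φ w + φ w * (∑ i, Uc S s c b i w ^ 2) ^ 2)
    set u := ∑ i, Uc S s c b i w ^ 2
    have h2 : (1 + u) ^ 2 ≤ 2 * (1 + u ^ 2) := by nlinarith [sq_nonneg (1 - u)]
    have h3 := mul_le_mul_of_nonneg_left h2 (h0 w)
    calc _ ≤ _ := h3
      _ = _ := by ring
  rw [integral_const_mul, integral_add hφ.integrable (hφ.mul (eU.pow 2)).integrable] at h1
  linarith

lemma int_lp0 {κ : Type} [Fintype κ] [DecidableEq κ] {f : (κ → ℝ) → ℝ} (hf : EG f) (a : ℝ) :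
    ∫ w, f (H712.lp ![a, 0, 0, 0] w) ∂(gI (K4 κ)) = ∫ g, f (a • g) ∂(gI κ) := by
  have h1 : EG fun w : K4 κ → ℝ => f (H712.lp ![a, 0, 0, 0] w) := eg_lp _ hf
  rw [R1.int_sum h1]
  refine integral_congr_ae (Filter.Eventually.of_forall fun y0 => ?_)
  have e : ∀ w2, H712.lp ![a, 0, 0, 0] (Sum.elim y0 w2) = a • y0 := by
    intro w2
    funext e
    simp [H712.lp]
  simp only [e, integral_const, probReal_univ, smul_eq_mul, one_mul]

lemma eg_vn_col' (b : Fin n) : EG fun z => vn (H816.col (S.A s z) b) := by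
  unfold vn H816.col
  exact EG.sum _ fun i _ => (S.eg_A s i b).pow 2

lemma eg_fr_A : EG fun z => fr (S.A s z) := by
  unfold fr
  exact EG.sum _ fun i _ => EG.sum _ fun j _ => (S.eg_A s i j).pow 2

/-- **Fourth moments of a column at a Gaussian position of variance `a²`.** -/
theorem col4_gauss (hs : 0 < s) (a : ℝ) (b : Fin n) :
    ∫ g, vn (H816.col (S.A s (a • g)) b) ^ 2 ∂(gI (Pair n)) ≤
      2 * (1 + 18 * ∫ g, (a ^ 2 * (k ^ 2 * fr (S.A s (a • g)))) ^ 2 ∂(gI (Pair n))) := by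
  have h1 := col4_v (b := b) S ![a, 0, 0, 0] hs (φ := fun _ => 1) (EG.const 1)
    (fun _ => zero_le_one) (fun _ _ => rfl)
  have e1 : (![a, 0, 0, 0] : Fin 4 → ℝ) 0 ^ 2 + (![a, 0, 0, 0] : Fin 4 → ℝ) 1 ^ 2 +
      (![a, 0, 0, 0] : Fin 4 → ℝ) 2 ^ 2 + (![a, 0, 0, 0] : Fin 4 → ℝ) 3 ^ 2 = a ^ 2 := by simp
  rw [e1] at h1
  simp only [one_mul, integral_const, probReal_univ, smul_eq_mul] at h1
  rw [int_lp0 (f := fun z => vn (H816.col (S.A s z) b) ^ 2) ((eg_vn_col' S b).pow 2) a,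
    int_lp0 (f := fun z => (a ^ 2 * (k ^ 2 * fr (S.A s z))) ^ 2)
      ((((eg_fr_A S).const_mul _).const_mul _).pow 2) a] at h1
  exact h1

end col

section two

variable {n : ℕ} {k : ℝ} {q : Par} {y h : ℝ} (S : CS n k q.x)

/-- the squared gradient at the time `t1 - h` in two rows -/
noncomputable def gB (q : Par) (y h : ℝ) (S : CS n k q.x) (R : Finset (Pair n))
    (z : Pair n → ℝ) : ℝ := ∑ e ∈ R, DV2 q y h S.F S.D e z ^ 2

lemma eg_DV2 (hy : 0 < y) (e : Pair n) : EG (DV2 q y h S.F S.D e) := by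
  obtain ⟨L', hV⟩ := c11_V2 (q := q) S.c11 S.x0 hy h
  exact hV.eg_D e

lemma eg_gB (hy : 0 < y) (R : Finset (Pair n)) : EG (gB q y h S R) :=
  EG.sum _ fun e _ => (eg_DV2 S hy e).pow 2

lemma gB_nonneg (R : Finset (Pair n)) (z : Pair n → ℝ) : 0 ≤ gB q y h S R z :=
  sum_nonneg fun _ _ => sq_nonneg _

/-- the bound of the gradient in two rows -/
lemma D_rows_le (b b' : Fin n) (z : Pair n → ℝ) :
    ∑ e ∈ row b ∪ row b', S.D e z ^ 2 ≤ 2 * k ^ 2 * n := by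
  have h1 := grF_rows_le S 1 b b' z
  refine le_trans (le_of_eq ?_) h1
  unfold grF
  refine sum_congr rfl fun e _ => ?_
  rw [S.D_eq, S.dd_eq]

/-- **`GRow` for the two-layer base.** -/
theorem GRow_two (hT : Two q y h) : GRow k q (GTwo q y h S.F S.D) := fun b b' =>
  GTwo_row S.c11 S.x0 hT fun z => D_rows_le S b b' z

lemma sum_Br_sq_le (hy : 0 < y) (R : Finset (Pair n)) (z0 z1 : Pair n → ℝ) :
    ∑ e ∈ R, Br q y h S.F (DV2 q y h S.F S.D e) z0 z1 ^ 2 ≤ Br q y h S.F (gB q y h S R) z0 z1 := by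
  unfold gB
  rw [Br_sum S.c11 S.x0 hy R fun e _ => (eg_DV2 S hy e).pow 2]
  exact sum_le_sum fun e _ => Br_sq_le S.c11 S.x0 hy (eg_DV2 S hy e) z0 z1

/-- the first slot -/
theorem gr0_two (hT : Two q y h) (R : Finset (Pair n)) (w : K4 (Pair n) → ℝ) :
    gr0 q (GTwo q y h S.F S.D) R w ^ 2 ≤
      q.x ^ 4 * Br q y h S.F (fun z => gB q y h S R z ^ 2) (P0 q w) (P1 q w) := by
  have hy := hT.y0
  have h1 : gr0 q (GTwo q y h S.F S.D) R w ≤
      q.x ^ 2 * Br q y h S.F (gB q y h S R) (P0 q w) (P1 q w) := by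
    have e1 : ∀ e ∈ R, (GTwo q y h S.F S.D).d0 e (P0 q w) (P1 q w) ^ 2 ≤
        q.x ^ 2 * Br q y h S.F (DV2 q y h S.F S.D e) (P0 q w) (P1 q w) ^ 2 := fun e _ => by
      rw [GTwo_d0, neg_sq, mul_pow]
      refine mul_le_mul_of_nonneg_right (pow_le_pow_left₀ (mul_nonneg hT.ca0 hy.le) ?_ 2)
        (sq_nonneg _)
      calc ca q h * y ≤ 1 * y := mul_le_mul_of_nonneg_right hT.ca1 hy.le
        _ ≤ q.x := by rw [one_mul]; exact hT.yx
    refine (sum_le_sum e1).trans ?_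
    rw [← mul_sum]
    exact mul_le_mul_of_nonneg_left (sum_Br_sq_le S hy R _ _) (sq_nonneg _)
  have h2 := pow_le_pow_left₀ (gr0_nonneg w) h1 2
  refine h2.trans ?_
  rw [mul_pow, ← pow_mul]
  exact mul_le_mul_of_nonneg_left (Br_sq_le S.c11 S.x0 hy (eg_gB S hy R) _ _)
    (pow_nonneg S.x0.le 4)

/-- the second slot -/
theorem gr1_two (hT : Two q y h) (R : Finset (Pair n)) (w : K4 (Pair n) → ℝ) :
    gr1 q (GTwo q y h S.F S.D) R w ^ 2 ≤
      q.x ^ 3 * ((q.x - y) * grF q.x q.t1 S.F S.D R (P1 q w) ^ 2 +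
        y * Br q y h S.F (fun z => gB q y h S R z ^ 2) (P0 q w) (P1 q w)) := by
  have hy := hT.y0
  have hxy : 0 ≤ q.x - y := by linarith [hT.yx]
  have hcy : 0 ≤ cb q h * y := mul_nonneg hT.cb0 hy.le
  have hcy1 : cb q h * y ≤ y := by
    calc cb q h * y ≤ 1 * y := mul_le_mul_of_nonneg_right hT.cb1 hy.le
      _ = y := one_mul y
  set a := grF q.x q.t1 S.F S.D R (P1 q w) with ha
  set v := Br q y h S.F (gB q y h S R) (P0 q w) (P1 q w) with hv
  set p := q.x - y with hp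
  set m := cb q h * y with hm
  have hpm : 0 ≤ p + m := add_nonneg hxy hcy
  have hpx : p + m ≤ q.x := by linarith
  have ha0 : 0 ≤ a := grF_nonneg _ _ _
  have hv0 : 0 ≤ v := Br_nonneg S.c11 S.x0 hy (eg_gB S hy R) (gB_nonneg S R) _ _
  have h1 : gr1 q (GTwo q y h S.F S.D) R w ≤ (p + m) * (p * a + m * v) := by
    have e1 : ∀ e ∈ R, (GTwo q y h S.F S.D).d1 e (P0 q w) (P1 q w) ^ 2 ≤ (p + m) *
        (p * dd q.x q.t1 S.F S.D e (P1 q w) ^ 2 +
          m * Br q y h S.F (DV2 q y h S.F S.D e) (P0 q w) (P1 q w) ^ 2) := fun e _ => by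
      rw [GTwo_d1, neg_sq]
      set u1 := dd q.x q.t1 S.F S.D e (P1 q w)
      set v1 := Br q y h S.F (DV2 q y h S.F S.D e) (P0 q w) (P1 q w)
      have h3 : 0 ≤ p * m * (u1 - v1) ^ 2 := mul_nonneg (mul_nonneg hxy hcy) (sq_nonneg _)
      nlinarith
    refine (sum_le_sum e1).trans ?_
    rw [← mul_sum, sum_add_distrib, ← mul_sum, ← mul_sum]
    refine mul_le_mul_of_nonneg_left (add_le_add le_rfl ?_) hpm
    exact mul_le_mul_of_nonneg_left (sum_Br_sq_le S hy R _ _) hcy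
  have h2 := pow_le_pow_left₀ (gr1_nonneg w) h1 2
  have h3 : ((p + m) * (p * a + m * v)) ^ 2 ≤ (p + m) ^ 3 * (p * a ^ 2 + m * v ^ 2) := by
    have h4 : 0 ≤ (p + m) ^ 2 * (p * m * (a - v) ^ 2) :=
      mul_nonneg (sq_nonneg _) (mul_nonneg (mul_nonneg hxy hcy) (sq_nonneg _))
    nlinarith
  have h4 : (p + m) ^ 3 ≤ q.x ^ 3 := pow_le_pow_left₀ hpm hpx 3
  have h5 : v ^ 2 ≤ Br q y h S.F (fun z => gB q y h S R z ^ 2) (P0 q w) (P1 q w) :=
    Br_sq_le S.c11 S.x0 hy (eg_gB S hy R) _ _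
  have h6 : p * a ^ 2 + m * v ^ 2 ≤
      p * a ^ 2 + y * Br q y h S.F (fun z => gB q y h S R z ^ 2) (P0 q w) (P1 q w) :=
    add_le_add le_rfl (mul_le_mul hcy1 h5 (sq_nonneg _) hy.le)
  have h7 : 0 ≤ p * a ^ 2 + m * v ^ 2 :=
    add_nonneg (mul_nonneg hxy (sq_nonneg _)) (mul_nonneg hcy (sq_nonneg _))
  refine (h2.trans h3).trans ?_
  exact mul_le_mul h4 h6 h7 (pow_nonneg S.x0.le 3)

/-! ### the matrices at the time `t1 - h` -/

variable (S' : CS n k y)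

/-- the gradient at the time `t1 - h` through the matrices of the lower layer -/
lemma DV2_eq (hF' : S'.F = uu q.x q.t1 S.F) (e : Pair n) (z : Pair n → ℝ) :
    DV2 q y h S.F S.D e z = k * S'.A (1 - h) z e.1.1 e.1.2 := by
  have h1 := S'.dd_eq (1 - h) e z
  have h2 : ∀ e, S'.D e = dd q.x q.t1 S.F S.D e := fun e => by
    have p1 : PD e S'.F (S'.D e) := S'.c11.pd e
    have p2 : PD e S'.F (dd q.x q.t1 S.F S.D e) := by
      rw [hF']
      exact (c11_uu S.c11 S.x0 q.t1).pd e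
    funext u
    exact PD_unique p1 p2 u
  rw [← h1]
  unfold DV2 R1.dd
  have e1 : S'.D = dd q.x q.t1 S.F S.D := funext h2
  rw [e1, hF', sub_sub_cancel]
  rfl

lemma gB_le (hF' : S'.F = uu q.x q.t1 S.F) (b b' : Fin n) (z : Pair n → ℝ) :
    gB q y h S (row b ∪ row b') z ≤ k ^ 2 * (vn (H816.col (S'.A (1 - h) z) b) +
      vn (H816.col (S'.A (1 - h) z) b')) := by
  have h1 := grF_rows (q := { q with x := y }) S' (1 - h) b b' z
  refine le_trans (le_of_eq ?_) h1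
  unfold gB grF
  refine sum_congr rfl fun e _ => ?_
  rw [DV2_eq S S' hF']
  have := S'.dd_eq (1 - h) e z
  simp only at this ⊢
  rw [this]

lemma sq_four {k a c u : ℝ} (hu0 : 0 ≤ u) (hu : u ≤ k ^ 2 * (a + c)) :
    u ^ 2 ≤ 2 * k ^ 4 * (a ^ 2 + c ^ 2) := by
  have h1 := pow_le_pow_left₀ hu0 hu 2
  have h2 : 0 ≤ k ^ 4 := by positivity
  nlinarith [mul_nonneg h2 (sq_nonneg (a - c))]

/-- the bridge mean of the fourth power of a column at the time `t1 - h` -/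
noncomputable def BV (q : Par) (y h : ℝ) (S : CS n k q.x) (S' : CS n k y) (c : Fin n)
    (w : K4 (Pair n) → ℝ) : ℝ :=
  Br q y h S.F (fun z => vn (H816.col (S'.A (1 - h) z) c) ^ 2) (P0 q w) (P1 q w)

lemma eg_BV (hy : 0 < y) (c : Fin n) : EG (BV q y h S S' c) :=
  eg_BrP S.c11 S.x0 hy ((eg_vn_col' S' c).pow 2)

lemma BV_nonneg (hy : 0 < y) (c : Fin n) (w : K4 (Pair n) → ℝ) : 0 ≤ BV q y h S S' c w :=
  Br_nonneg S.c11 S.x0 hy ((eg_vn_col' S' c).pow 2) (fun _ => sq_nonneg _) _ _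

lemma vn_nn (v : Fin n → ℝ) : 0 ≤ vn v := sum_nonneg fun _ _ => sq_nonneg _

lemma BV_le (hy : 0 < y) (c : Fin n) (w : K4 (Pair n) → ℝ) : BV q y h S S' c w ≤ (n : ℝ) ^ 2 :=
  Br_le S.c11 S.x0 hy ((eg_vn_col' S' c).pow 2)
    (fun z => pow_le_pow_left₀ (vn_nn _) (lw_vn_le (q := { q with x := y }) S' (1 - h) c z) 2) _ _

lemma Br_gB_le (hF' : S'.F = uu q.x q.t1 S.F) (hy : 0 < y) (b b' : Fin n)
    (w : K4 (Pair n) → ℝ) :
    Br q y h S.F (fun z => gB q y h S (row b ∪ row b') z ^ 2) (P0 q w) (P1 q w) ≤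
      2 * k ^ 4 * (BV q y h S S' b w + BV q y h S S' b' w) := by
  have ev : ∀ c, EG fun z => vn (H816.col (S'.A (1 - h) z) c) ^ 2 := fun c =>
    (eg_vn_col' S' c).pow 2
  have h1 := Br_mono (h := h) S.c11 S.x0 hy ((eg_gB S hy (row b ∪ row b')).pow 2)
    (((ev b).add (ev b')).const_mul (2 * k ^ 4))
    (fun z => sq_four (gB_nonneg S _ z) (gB_le S S' hF' b b' z)) (P0 q w) (P1 q w)
  rw [Br_const_mul, Br_add S.c11 S.x0 hy (ev b) (ev b')] at h1
  exact h1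

/-- **`H4G` for the two-layer base**, from the fourth moments of the columns at the times `s2`,
`t1` and `t1 - h`. -/
theorem H4G_two (hq : q.OkS) (hT : Two q y h) (hF' : S'.F = uu q.x q.t1 S.F) {m4 : ℝ}
    (h3 : ∀ b b' : Fin n, b' ≠ b → ∀ c, c = b ∨ c = b' →
      ∫ w, phG q (GTwo q y h S.F S.D) S.F b b' w * vn (H816.col (S.A q.s2 (P3 q w)) c) ^ 2
        ∂(gI (K4 (Pair n))) ≤ EwG q (GTwo q y h S.F S.D) S.F (fun _ => 1) * m4)
    (h1 : ∀ b b' : Fin n, b' ≠ b → ∀ c, c = b ∨ c = b' →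
      ∫ w, phG q (GTwo q y h S.F S.D) S.F b b' w * vn (H816.col (S.A q.t1 (P1 q w)) c) ^ 2
        ∂(gI (K4 (Pair n))) ≤ EwG q (GTwo q y h S.F S.D) S.F (fun _ => 1) * m4)
    (hB : ∀ b b' : Fin n, b' ≠ b → ∀ c, c = b ∨ c = b' →
      ∫ w, phG q (GTwo q y h S.F S.D) S.F b b' w * BV q y h S S' c w
        ∂(gI (K4 (Pair n))) ≤ EwG q (GTwo q y h S.F S.D) S.F (fun _ => 1) * m4) :
    H4G S (GTwo q y h S.F S.D) m4 := by
  have hy := hT.y0
  have hG : (GTwo q y h S.F S.D).Ok := GTwo_ok S.c11 S.x0 hy h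
  intro b b' hb
  set φ := phG q (GTwo q y h S.F S.D) S.F b b' with hφd
  set Z := EwG q (GTwo q y h S.F S.D) S.F (fun _ => 1) with hZ
  have hφ : EG φ := eg_ph_SG S hq hG b b'
  have hφ0 : ∀ w, 0 ≤ φ w := phG_nonneg _ S.F b b'
  have eB : EG fun w => Br q y h S.F (fun z => gB q y h S (row b ∪ row b') z ^ 2) (P0 q w)
      (P1 q w) := eg_BrP S.c11 S.x0 hy ((eg_gB S hy _).pow 2)
  have k4 : 0 ≤ k ^ 4 := by positivity
  have iB : ∫ w, φ w * Br q y h S.F (fun z => gB q y h S (row b ∪ row b') z ^ 2) (P0 q w)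
      (P1 q w) ∂(gI (K4 (Pair n))) ≤ 4 * k ^ 4 * (Z * m4) := by
    have i1 : Integrable (fun w => φ w * BV q y h S S' b w) (gI (K4 (Pair n))) :=
      (hφ.mul (eg_BV S S' hy b)).integrable
    have i2 : Integrable (fun w => φ w * BV q y h S S' b' w) (gI (K4 (Pair n))) :=
      (hφ.mul (eg_BV S S' hy b')).integrable
    have l1 : ∫ w, φ w * Br q y h S.F (fun z => gB q y h S (row b ∪ row b') z ^ 2) (P0 q w)
        (P1 q w) ∂(gI (K4 (Pair n))) ≤ ∫ w, 2 * k ^ 4 * (φ w * BV q y h S S' b w +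
          φ w * BV q y h S S' b' w) ∂(gI (K4 (Pair n))) := by
      refine integral_mono (hφ.mul eB).integrable ((i1.add i2).const_mul _) fun w => ?_
      have := mul_le_mul_of_nonneg_left (Br_gB_le (h := h) S S' hF' hy b b' w) (hφ0 w)
      show φ w * _ ≤ 2 * k ^ 4 * (φ w * BV q y h S S' b w + φ w * BV q y h S S' b' w)
      linarith
    refine l1.trans ?_
    rw [integral_const_mul, integral_add i1 i2]
    have l2 := hB b b' hb b (Or.inl rfl)
    have l3 := hB b b' hb b' (Or.inr rfl)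
    nlinarith
  have iA : ∫ w, φ w * grF q.x q.t1 S.F S.D (row b ∪ row b') (P1 q w) ^ 2
      ∂(gI (K4 (Pair n))) ≤ 4 * k ^ 4 * (Z * m4) := by
    have ev : ∀ c, EG fun w => vn (H816.col (S.A q.t1 (P1 q w)) c) :=
      fun c => eg_P1 (eg_vn_col_S S q.t1 c)
    have i1 : Integrable (fun w => φ w * vn (H816.col (S.A q.t1 (P1 q w)) b) ^ 2)
      (gI (K4 (Pair n))) := (hφ.mul ((ev b).pow 2)).integrable
    have i2 : Integrable (fun w => φ w * vn (H816.col (S.A q.t1 (P1 q w)) b') ^ 2)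
      (gI (K4 (Pair n))) := (hφ.mul ((ev b').pow 2)).integrable
    have l1 : ∫ w, φ w * grF q.x q.t1 S.F S.D (row b ∪ row b') (P1 q w) ^ 2
        ∂(gI (K4 (Pair n))) ≤ ∫ w, 2 * k ^ 4 * (φ w * vn (H816.col (S.A q.t1 (P1 q w)) b) ^ 2 +
          φ w * vn (H816.col (S.A q.t1 (P1 q w)) b') ^ 2) ∂(gI (K4 (Pair n))) := by
      refine integral_mono (hφ.mul ((eg_P1 (eg_grF S.c11 hq.x0 q.t1)).pow 2)).integrable
        ((i1.add i2).const_mul _) fun w => ?_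
      have l2 := sq_four (grF_nonneg (F := S.F) (D := S.D) (R := row b ∪ row b') q.x q.t1
        (P1 q w)) (grF_rows S q.t1 b b' (P1 q w))
      have := mul_le_mul_of_nonneg_left l2 (hφ0 w)
      show φ w * grF q.x q.t1 S.F S.D (row b ∪ row b') (P1 q w) ^ 2 ≤ 2 * k ^ 4 *
        (φ w * vn (H816.col (S.A q.t1 (P1 q w)) b) ^ 2 +
          φ w * vn (H816.col (S.A q.t1 (P1 q w)) b') ^ 2)
      linarith
    refine l1.trans ?_
    rw [integral_const_mul, integral_add i1 i2]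
    have l2 := h1 b b' hb b (Or.inl rfl)
    have l3 := h1 b b' hb b' (Or.inr rfl)
    nlinarith
  refine ⟨h3 b b' hb, ?_, ?_⟩
  · have j1 : Integrable (fun w => (q.x - y) *
        (φ w * grF q.x q.t1 S.F S.D (row b ∪ row b') (P1 q w) ^ 2)) (gI (K4 (Pair n))) :=
      ((hφ.mul ((eg_P1 (eg_grF S.c11 hq.x0 q.t1)).pow 2)).integrable).const_mul _
    have j2 : Integrable (fun w => y * (φ w * Br q y h S.F
        (fun z => gB q y h S (row b ∪ row b') z ^ 2) (P0 q w) (P1 q w))) (gI (K4 (Pair n))) :=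
      (hφ.mul eB).integrable.const_mul _
    have l1 : ∫ w, φ w * gr1 q (GTwo q y h S.F S.D) (row b ∪ row b') w ^ 2
        ∂(gI (K4 (Pair n))) ≤ ∫ w, q.x ^ 3 * ((q.x - y) *
          (φ w * grF q.x q.t1 S.F S.D (row b ∪ row b') (P1 q w) ^ 2) +
          y * (φ w * Br q y h S.F (fun z => gB q y h S (row b ∪ row b') z ^ 2) (P0 q w)
            (P1 q w))) ∂(gI (K4 (Pair n))) := by
      refine integral_mono (hφ.mul (hG.eg_gr1.pow 2)).integrable
        ((j1.add j2).const_mul _) fun w => ?_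
      have := mul_le_mul_of_nonneg_left (gr1_two S hT (row b ∪ row b') w) (hφ0 w)
      refine this.trans (le_of_eq ?_)
      show _ = q.x ^ 3 * ((q.x - y) * (φ w * grF q.x q.t1 S.F S.D (row b ∪ row b') (P1 q w) ^ 2)
        + y * (φ w * Br q y h S.F (fun z => gB q y h S (row b ∪ row b') z ^ 2) (P0 q w)
            (P1 q w)))
      ring
    refine l1.trans ?_
    rw [integral_const_mul, integral_add j1 j2, integral_const_mul, integral_const_mul]
    have hxy : 0 ≤ q.x - y := by linarith [hT.yx]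
    have l2 := mul_le_mul_of_nonneg_left iA hxy
    have l3 := mul_le_mul_of_nonneg_left iB hy.le
    have l4 := mul_le_mul_of_nonneg_left (add_le_add l2 l3) (pow_nonneg hq.x0.le 3)
    refine l4.trans (le_of_eq ?_)
    ring
  · have l1 : ∫ w, φ w * gr0 q (GTwo q y h S.F S.D) (row b ∪ row b') w ^ 2
        ∂(gI (K4 (Pair n))) ≤ ∫ w, q.x ^ 4 * (φ w * Br q y h S.F
          (fun z => gB q y h S (row b ∪ row b') z ^ 2) (P0 q w) (P1 q w))
            ∂(gI (K4 (Pair n))) := by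
      refine integral_mono (hφ.mul (hG.eg_gr0.pow 2)).integrable
        ((hφ.mul eB).integrable.const_mul _) fun w => ?_
      have := mul_le_mul_of_nonneg_left (gr0_two S hT (row b ∪ row b') w) (hφ0 w)
      refine this.trans (le_of_eq ?_)
      show _ = q.x ^ 4 * (φ w * Br q y h S.F
        (fun z => gB q y h S (row b ∪ row b') z ^ 2) (P0 q w) (P1 q w))
      ring
    refine l1.trans ?_
    rw [integral_const_mul]
    have := mul_le_mul_of_nonneg_left iB (pow_nonneg hq.x0.le 4)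
    refine this.trans (le_of_eq ?_)
    ring

/-- the fourth moment of a column at the time `t1 - h` under the averaged density -/
theorem BV_ph (hq : q.OkS) (hT : Two q y h) (h0 : 0 < h) {ε : ℝ}
    (hL : Law2G n ε q (GTwo q y h S.F S.D) S.F) (b b' c : Fin n) :
    ∫ w, phG q (GTwo q y h S.F S.D) S.F b b' w * BV q y h S S' c w ∂(gI (K4 (Pair n))) ≤
      2 * (∫ g, vn (H816.col (S'.A (1 - h) (√(q.t1 - h) • g)) c) ^ 2 ∂(gI (Pair n))) +
        ε * (n : ℝ) ^ 2 := by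
  have hy := hT.y0
  have hG : (GTwo q y h S.F S.D).Ok := GTwo_ok S.c11 S.x0 hy h
  have eBV := eg_BV (q := q) (h := h) S S' hy c
  have h1 : ∫ w, phG q (GTwo q y h S.F S.D) S.F b b' w * BV q y h S S' c w
      ∂(gI (K4 (Pair n))) = EwG q (GTwo q y h S.F S.D) S.F
        (Av (lf (row b ∪ row b')) (BV q y h S S' c)) := by
    unfold phG EwG
    exact (H712.integral_mul_Av (eg_densG S.c11 S.x0 hG) eBV _).symm
  have h2 := hL.low b b' (BV q y h S S' c) ((n : ℝ) ^ 2) eBV (BV_nonneg S S' hy c)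
    (BV_le S S' hy c)
  have h3 : EwG q (GTwo q y h S.F S.D) S.F (BV q y h S S' c) =
      ∫ g, vn (H816.col (S'.A (1 - h) (√(q.t1 - h) • g)) c) ^ 2 ∂(gI (Pair n)) :=
    EwG_Br S.c11 S.x0 hy h0 hq.h0 hT.ht hq.h1 hq.h12 hq.h2 ((eg_vn_col' S' c).pow 2)
  have h4 : EwG q (GTwo q y h S.F S.D) S.F (fun _ => 1) = 1 :=
    H693.EwT_one S.c11 S.x0 hy h0 hT.ht hq.h1 hq.h12 hq.h2
  rw [h3, h4, mul_one] at h2
  rw [h1]
  exact h2

/-- the second moment of the size at a Gaussian position from rarity -/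
theorem size_gauss {s a R δ : ℝ} (ha : a ^ 2 ≤ 1) (hR : 0 ≤ R)
    (hr : ∫ g, (if R < fr (S'.A s (a • g)) then (1 : ℝ) else 0) ∂(gI (Pair n)) ≤ δ) :
    ∫ g, (a ^ 2 * (k ^ 2 * fr (S'.A s (a • g)))) ^ 2 ∂(gI (Pair n)) ≤
      (k ^ 2 * R) ^ 2 + (k ^ 2 * (n : ℝ) ^ 2) ^ 2 * δ := by
  have ef : EG fun g : Pair n → ℝ => fr (S'.A s (a • g)) := by
    have := EG.add_smul (eg_fr_A (s := s) S') 0 a
    simpa only [zero_add] using this
  have ei : EG fun g : Pair n → ℝ => (if R < fr (S'.A s (a • g)) then (1 : ℝ) else 0) := by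
    refine EG.of_bdd (C := 1) ?_ fun g => ?_
    · exact Measurable.ite (measurableSet_lt measurable_const ef.meas) measurable_const
        measurable_const
    · split_ifs <;> norm_num
  have hpt : ∀ g : Pair n → ℝ, (a ^ 2 * (k ^ 2 * fr (S'.A s (a • g)))) ^ 2 ≤
      (k ^ 2 * R) ^ 2 + (k ^ 2 * (n : ℝ) ^ 2) ^ 2 *
        (if R < fr (S'.A s (a • g)) then (1 : ℝ) else 0) := by
    intro g
    have f0 : 0 ≤ fr (S'.A s (a • g)) := H325.fr_nonneg _
    have f1 : fr (S'.A s (a • g)) ≤ (n : ℝ) ^ 2 := S'.fr_A_le _ _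
    have hk : 0 ≤ k ^ 2 := sq_nonneg k
    have h1 : a ^ 2 * (k ^ 2 * fr (S'.A s (a • g))) ≤ k ^ 2 * fr (S'.A s (a • g)) :=
      mul_le_of_le_one_left (mul_nonneg hk f0) ha
    have h2 : 0 ≤ a ^ 2 * (k ^ 2 * fr (S'.A s (a • g))) :=
      mul_nonneg (sq_nonneg _) (mul_nonneg hk f0)
    refine (pow_le_pow_left₀ h2 h1 2).trans ?_
    split_ifs with hc
    · have h3 := pow_le_pow_left₀ (mul_nonneg hk f0) (mul_le_mul_of_nonneg_left f1 hk) 2
      have h4 := sq_nonneg (k ^ 2 * R)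
      rw [mul_one]
      linarith
    · have h3 := pow_le_pow_left₀ (mul_nonneg hk f0)
        (mul_le_mul_of_nonneg_left (not_lt.1 hc) hk) 2
      rw [mul_zero, add_zero]
      exact h3
  have h1 := integral_mono (((ef.const_mul (k ^ 2)).const_mul (a ^ 2)).pow 2).integrable
    ((EG.const ((k ^ 2 * R) ^ 2)).add (ei.const_mul ((k ^ 2 * (n : ℝ) ^ 2) ^ 2))).integrable hpt
  refine h1.trans ?_
  rw [integral_add (integrable_const _) (ei.integrable.const_mul _), integral_const_mul]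
  simp only [integral_const, probReal_univ, smul_eq_mul, one_mul]
  have := mul_le_mul_of_nonneg_left hr (sq_nonneg (k ^ 2 * (n : ℝ) ^ 2))
  linarith

/-- **the clause of `H4G_two` at the time `t1 - h`, from rarity under the Gaussian law** -/
theorem BV_num (hq : q.OkS) (hT : Two q y h) (h0 : 0 < h) (h1 : h < 1) {ε R δ m4 : ℝ}
    (hL : Law2G n ε q (GTwo q y h S.F S.D) S.F) (hR : 0 ≤ R)
    (hr : ∫ g, (if R < fr (S'.A (1 - h) (√(q.t1 - h) • g)) then (1 : ℝ) else 0)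
      ∂(gI (Pair n)) ≤ δ)
    (hm : 4 * (1 + 18 * ((k ^ 2 * R) ^ 2 + (k ^ 2 * (n : ℝ) ^ 2) ^ 2 * δ)) + ε * (n : ℝ) ^ 2 ≤ m4)
    (b b' c : Fin n) :
    ∫ w, phG q (GTwo q y h S.F S.D) S.F b b' w * BV q y h S S' c w ∂(gI (K4 (Pair n))) ≤
      EwG q (GTwo q y h S.F S.D) S.F (fun _ => 1) * m4 := by
  have hta : 0 ≤ q.t1 - h := hq.h0.trans hT.ht
  have ht1 : q.t1 ≤ 1 := hq.h1.trans (hq.h12.trans hq.h2)
  have ha : √(q.t1 - h) ^ 2 ≤ 1 := by
    rw [Real.sq_sqrt hta]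
    linarith
  rw [H693.EwT_one S.c11 S.x0 hT.y0 h0 hT.ht hq.h1 hq.h12 hq.h2, one_mul]
  have l1 := BV_ph S S' hq hT h0 hL b b' c
  have l2 := col4_gauss S' (s := 1 - h) (by linarith) (√(q.t1 - h)) c
  have l3 := size_gauss S' (s := 1 - h) ha hR hr
  linarith

/-- **`H4G` for the two-layer base from numbers**: the fourth moments of the columns at the times
`t1`, `s2`, and rarity of the size at the time `t1 - h` under the Gaussian law. -/
theorem H4G_two_num (hq : q.OkS) (hT : Two q y h) (h0 : 0 < h) (h1 : h < 1)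
    (hF' : S'.F = uu q.x q.t1 S.F) {ε R δ m4 : ℝ}
    (hL : Law2G n ε q (GTwo q y h S.F S.D) S.F) (hR : 0 ≤ R)
    (hr : ∫ g, (if R < fr (S'.A (1 - h) (√(q.t1 - h) • g)) then (1 : ℝ) else 0)
      ∂(gI (Pair n)) ≤ δ)
    (hm : 4 * (1 + 18 * ((k ^ 2 * R) ^ 2 + (k ^ 2 * (n : ℝ) ^ 2) ^ 2 * δ)) + ε * (n : ℝ) ^ 2 ≤ m4)
    (c3 : ∀ b b' : Fin n, b' ≠ b → ∀ c, c = b ∨ c = b' →
      ∫ w, phG q (GTwo q y h S.F S.D) S.F b b' w * vn (H816.col (S.A q.s2 (P3 q w)) c) ^ 2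
        ∂(gI (K4 (Pair n))) ≤ EwG q (GTwo q y h S.F S.D) S.F (fun _ => 1) * m4)
    (c1 : ∀ b b' : Fin n, b' ≠ b → ∀ c, c = b ∨ c = b' →
      ∫ w, phG q (GTwo q y h S.F S.D) S.F b b' w * vn (H816.col (S.A q.t1 (P1 q w)) c) ^ 2
        ∂(gI (K4 (Pair n))) ≤ EwG q (GTwo q y h S.F S.D) S.F (fun _ => 1) * m4) :
    H4G S (GTwo q y h S.F S.D) m4 :=
  H4G_two S S' hq hT hF' c3 c1 fun b b' _ c _ => BV_num S S' hq hT h0 h1 hL hR hr hm b b' c

end two

end Vale.Agent.P146.R1S
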